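import Vale.Agent.N308.Core

/-!
Two gadgets: binary weights are replaced by a staircase graph at every vertex; prescribed degrees
and rational weights are replaced by copies of the vertices and subdivided edges.
-/

namespace Vale.Agent.N308

open Finset Function

variable {α : Type} [DecidableEq α]

theorem chain (S : Finset α) (B : α → ℕ) (Φ : (α → ℕ) → ℝ) (r : α → ℕ → ℝ)
    (h : ∀ c : α → ℕ, ∀ u ∈ S, c u < B u → Φ (update c u (c u + 1)) = r u (c u) * Φ c) :
    Φ (fun u => if u ∈ S then B u else 0) = (∏ u ∈ S, ∏ j ∈ range (B u), r u j) * Φ 0 := by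
  induction S using Finset.induction_on with
  | empty => simp [Pi.zero_def]
  | insert u T hu ih =>
    have h1 : ∀ j ≤ B u, Φ (update (fun u => if u ∈ T then B u else 0) u j) =
        (∏ i ∈ range j, r u i) * Φ fun u => if u ∈ T then B u else 0 := by
      intro j hj
      induction j with
      | zero =>
        rw [update_eq_self_iff.2 (by simp [hu])]
        simp
      | succ j ihj =>
        have := h (update (fun u => if u ∈ T then B u else 0) u j) u (mem_insert_self u T)
          (by simpa using hj)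
        rw [update_idem, update_self] at this
        rw [this, ihj (by omega), prod_range_succ]
        ring
    have h2 : (fun x => if x ∈ insert u T then B x else 0) =
        update (fun u => if u ∈ T then B u else 0) u (B u) := by
      funext x
      by_cases hx : x = u
      · simp [hx]
      · simp [hx]
    rw [h2, h1 _ le_rfl, ih fun c x hx => h c x (mem_insert_of_mem hx), prod_insert hu, mul_assoc]

/-- the indicator of a set -/
def ind (S : Finset α) (a : α) : ℤ := if a ∈ S then 1 else 0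

/-- total weight of the perfect matchings of `S` -/
noncomputable def Hf (S : Finset α) (w : α → α → ℕ) : ℝ :=
  F S (sw fun a b => (w a b : ℝ)) (ind S)

/-! ### binary weights -/

/-- the weights of the staircase gadget when `c u` levels at `u` have been removed -/
def w2 (w : α → α → ℕ) (c : α → ℕ) (x y : α × ℕ) : ℕ :=
  if y.2 % 2 = 1 then
    if x.1 = y.1 ∧ x.2 % 2 = 0 ∧ x.2 ≤ y.2 + 1 then (if x.2 = 0 then 2 ^ c x.1 else 1) else 0
  else if y.2 = 0 ∧ x.2 % 2 = 0 then
    if x.2 = 0 then w x.1 y.1 % 2 ^ c x.1 else w x.1 y.1 / 2 ^ (x.2 / 2 - 1) % 2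
  else 0

/-- the remaining vertices -/
def g2 (S : Finset α) (L : ℕ) (c : α → ℕ) (x : α × ℕ) : ℤ :=
  if x.1 ∈ S ∧ (x.2 = 0 ∨ (2 * c x.1 < x.2 ∧ x.2 ≤ 2 * L)) then 1 else 0

theorem step2 {S : Finset α} {w : α → α → ℕ} {L : ℕ} (c : α → ℕ) {u : α} (hu : u ∈ S)
    (hw : w u u = 0) (hc : c u < L) :
    F (S ×ˢ range (2 * L + 1)) (sw fun x y => (w2 w (update c u (c u + 1)) x y : ℝ))
        (g2 S L (update c u (c u + 1))) =
      F (S ×ˢ range (2 * L + 1)) (sw fun x y => (w2 w c x y : ℝ)) (g2 S L c) := by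
  have e : g2 S L (update c u (c u + 1)) =
      g2 S L c - chi s((u, 2 * c u + 1), (u, 2 * c u + 2)) := by
    funext ⟨x, s⟩
    simp only [Pi.sub_apply, chi_mk, g2, Prod.mk.injEq]
    by_cases hx : x = u
    · subst hx
      simp only [update_self, hu, true_and]
      split_ifs <;> omega
    · simp [hx]
  rw [e]
  refine F_elim (u := (u, 0)) (by simp [hu]; omega) (by simp [hu]; omega) (by simp [hu]) (by simp)
    (by simp) (by simp) (by simp [g2, hu]; omega) (by simp [g2, hu]; omega) (by simp [g2, hu])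
    ?_ ?_ ?_ ?_ ?_ ?_
  · have h1 : (2 * c u + 1) % 2 = 1 := by omega
    simp [w2, h1]
  · rintro ⟨y, t⟩ - h1 h2 h3
    have h4 : (2 * c u + 1) % 2 = 1 := by omega
    simp only [sw_mk, w2, h4, one_ne_zero, false_and, and_false, if_false, ite_self, if_true,
      Nat.cast_zero, zero_add, Nat.cast_eq_zero]
    rw [if_neg]
    rintro ⟨rfl, h5, h6⟩
    simp only [g2, ne_eq, Prod.mk.injEq, true_and] at h1 h2 h3
    split_ifs at h3 with h7
    · omega
    · omega
  · simp [w2]
  · simp [w2, hw]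
  · rintro ⟨y, t⟩ - h1 h2 h3 h4
    have h5 : (2 * c u + 1) % 2 = 1 := by omega
    have h6 : (2 * c u + 2) % 2 = 0 := by omega
    have h7 : (2 * c u + 2) / 2 - 1 = c u := by omega
    simp only [g2] at h4
    by_cases ht : t % 2 = 1
    · by_cases hy : u = y
      · subst hy
        have h8 : 2 * c u + 2 ≤ t + 1 := by
          split_ifs at h4 with h9
          · omega
          · omega
        simp [w2, ht, h5, h8]
        ring
      · simp [w2, ht, hy]
    by_cases h0 : t = 0
    · subst h0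
      have hy : y ≠ u := by simpa using h3
      simp only [sw_mk, w2, h5, h6, h7, update_self, update_of_ne hy, Nat.mod_pow_succ]
      simp
      ring
    · simp [w2, ht, h0]
  · rintro ⟨x, s⟩ - ⟨y, t⟩ - h1 h2
    have h3 : s = 0 → update c u (c u + 1) x = c x := fun h =>
      update_of_ne (by simpa [h] using h1) _ _
    have h4 : t = 0 → update c u (c u + 1) y = c y := fun h =>
      update_of_ne (by simpa [h] using h2) _ _
    simp only [sw_mk, w2]
    congr 2
    · by_cases h : s = 0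
      · rw [h3 h]
      · simp only [h, if_false]
    · by_cases h : t = 0
      · rw [h4 h]
      · simp only [h, if_false]

theorem binary {S : Finset α} {w : α → α → ℕ} {L : ℕ} (hw : ∀ u ∈ S, w u u = 0)
    (hL : ∀ u ∈ S, ∀ v ∈ S, w u v < 2 ^ L) :
    Hf (S ×ˢ range (2 * L + 1)) (w2 w 0) = Hf S w := by
  have h := chain S (fun _ => L) (fun c => F (S ×ˢ range (2 * L + 1))
    (sw fun x y => (w2 w c x y : ℝ)) (g2 S L c)) (fun _ _ => 1) fun c u hu hc => by
      rw [one_mul]; exact step2 c hu (hw u hu) hc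
  have e : g2 S L 0 = ind (S ×ˢ range (2 * L + 1)) := by
    funext ⟨x, s⟩
    simp only [g2, ind, mem_product, mem_range, Pi.zero_apply]
    refine if_congr (and_congr_right fun _ => by omega) rfl rfl
  have inj : Injective fun u : α => (u, 0) := fun a b h => congrArg Prod.fst h
  simp only [prod_const_one, one_mul, e] at h
  rw [Hf, ← h, F_subset (S' := S.image fun u => (u, 0)), F_map inj, Hf]
  · have : (fun a => g2 S L (fun u => if u ∈ S then L else 0) (a, 0)) = ind S := by
      funext a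
      simp [g2, ind]
    rw [this]
    refine F_congr fun a ha b hb _ _ => ?_
    simp [w2, ha, hb, Nat.mod_eq_of_lt (hL a ha b hb), Nat.mod_eq_of_lt (hL b hb a ha)]
  · rintro ⟨x, s⟩ h1
    rw [g2, if_neg]
    rintro ⟨h2, h3⟩
    simp only [h2, if_true] at h3
    exact h1 x (by simp; omega)
  · intro x hx
    obtain ⟨u, hu, rfl⟩ := mem_image.1 hx
    simp [hu]
  · rintro ⟨x, s⟩ h1 h2
    have hx : x ∈ S := (mem_product.1 h1).1
    simp only [g2, hx, if_true, true_and] at h2
    split_ifs at h2 with h3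
    · exact mem_image.2 ⟨x, hx, by simp; omega⟩
    · omega

theorem w2_le (w : α → α → ℕ) (x y : α × ℕ) : w2 w 0 x y + w2 w 0 y x ≤ 1 := by
  simp only [w2, Pi.zero_apply, pow_zero, Nat.mod_one, ite_self]
  split_ifs <;> omega

theorem w2_self (w : α → α → ℕ) (x : α × ℕ) : w2 w 0 x x = 0 := by
  have := w2_le w x x
  omega

/-! ### prescribed degrees -/

/-- labels: `(0, u, v)` is the end at `u` of the edge `uv`, `(1, u, k)` is a copy of `u`, and
`(2, u, 0)` is the vertex `u` -/
abbrev Lb : Type := ℕ × ℕ × ℕ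

/-- the weights of the subdivided graph -/
def w1 (num den : ℕ → ℕ → ℕ) (x y : Lb) : ℕ :=
  if y.1 = 0 then
    if x.1 = 0 then
      if x.2.1 < x.2.2 ∧ y.2.1 = x.2.2 ∧ y.2.2 = x.2.1 then den x.2.1 x.2.2 else 0
    else if x.2.1 = y.2.1 then (if y.2.1 < y.2.2 then num y.2.1 y.2.2 else 1) else 0
  else 0

/-- the weights when the edges in `T` are not subdivided -/
noncomputable def wT (num den : ℕ → ℕ → ℕ) (T : Finset (ℕ × ℕ)) (x y : Lb) : ℝ :=
  w1 num den x y + if x.1 = 2 ∧ y.1 = 2 ∧ x.2.2 = 0 ∧ y.2.2 = 0 ∧ (x.2.1, y.2.1) ∈ T then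
    (num x.2.1 y.2.1 : ℝ) / den x.2.1 y.2.1 else 0

/-- the degrees -/
def g1 (n : ℕ) (f : ℕ → ℕ) (T : Finset (ℕ × ℕ)) (c : ℕ → ℕ) (x : Lb) : ℤ :=
  if x.2.1 < n then
    if x.1 = 0 then
      if x.2.2 < n ∧ x.2.1 ≠ x.2.2 ∧ (x.2.1, x.2.2) ∉ T ∧ (x.2.2, x.2.1) ∉ T then 1 else 0
    else if x.1 = 1 then (if x.2.2 < c x.2.1 then 1 else 0)
    else if x.1 = 2 ∧ x.2.2 = 0 then (f x.2.1 : ℤ) - c x.2.1 else 0
  else 0

/-- all labels -/
def S1 (n : ℕ) : Finset Lb := range 3 ×ˢ range n ×ˢ range n

theorem stepA {n : ℕ} (num den : ℕ → ℕ → ℕ) {f : ℕ → ℕ} (c : ℕ → ℕ) {v : ℕ} (hv : v < n)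
    (hc : c v < f v) (hf : f v ≤ n) :
    F (S1 n) (sw (wT num den ∅)) (g1 n f ∅ (update c v (c v + 1))) =
      ((f v : ℝ) - c v) * F (S1 n) (sw (wT num den ∅)) (g1 n f ∅ c) := by
  rw [F_split (v := (2, v, 0)) (t := (1, v, c v)) (g := g1 n f ∅ c) _ (by simp [S1]; omega)
    (by simp [S1]; omega) (by simp [g1]) (by simp [g1, hv]) (by simp [g1, hv]; ring)]
  · simp [g1, hv]
  · rintro ⟨i, x, s⟩ h1 h2
    by_cases hx : x = v
    · subst hx
      simp only [g1, update_self, ne_eq, Prod.mk.injEq, true_and] at h1 h2 ⊢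
      split_ifs <;> omega
    · simp only [g1, update_of_ne hx]
  · rintro ⟨i, x, s⟩ -
    simp [wT, w1]
  · rintro ⟨i, x, s⟩ - h
    have h1 : i = 0 := by
      by_contra h1
      simp [wT, w1, h1] at h
    subst h1
    refine ⟨by simp, by simp, ?_⟩
    simp only [g1, if_true]
    split_ifs <;> omega

theorem chi_ne {a b : α} (h : a ≠ b) (x : α) :
    chi s(a, b) x = (if x = a then 1 else 0) + if x = b then 1 else 0 := by
  rw [chi_mk]
  by_cases h1 : x = a <;> by_cases h2 : x = b <;> simp_all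

theorem chi_swap (g : α → ℤ) {a b c d : α} (h1 : a ≠ c) (h2 : b ≠ d) (h3 : a ≠ b) (h4 : c ≠ d) :
    g - chi s(a, c) - chi s(b, d) = g - chi s(a, b) - chi s(c, d) := by
  funext x
  simp only [Pi.sub_apply, chi_ne h1, chi_ne h2, chi_ne h3, chi_ne h4]
  ring

theorem stepB {n : ℕ} {num den : ℕ → ℕ → ℕ} (f : ℕ → ℕ) {T : Finset (ℕ × ℕ)} {u v : ℕ}
    (huv : u < v) (hv : v < n) (hT : (u, v) ∉ T) (hT' : (v, u) ∉ T) (hd : den u v ≠ 0) :
    F (S1 n) (sw (wT num den T)) (g1 n f T 0) =
      den u v * F (S1 n) (sw (wT num den (insert (u, v) T))) (g1 n f (insert (u, v) T) 0) := by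
  have hu : u < n := by omega
  have h1 : u ≠ v := by omega
  have h2 : ¬v < u := by omega
  have e : g1 n f (insert (u, v) T) 0 = g1 n f T 0 - chi s((0, u, v), (0, v, u)) := by
    funext ⟨i, x, s⟩
    simp only [Pi.sub_apply, chi_mk, g1, Prod.mk.injEq, mem_insert]
    by_cases a1 : i = 0 ∧ x = u ∧ s = v
    · obtain ⟨rfl, rfl, rfl⟩ := a1
      simp [hu, hv, h1, hT, hT']
    by_cases a2 : i = 0 ∧ x = v ∧ s = u
    · obtain ⟨rfl, rfl, rfl⟩ := a2
      simp [hu, hv, h1.symm, hT, hT']
    rw [if_neg (not_or.2 ⟨a1, a2⟩), sub_zero]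
    by_cases a3 : i = 0
    · have a4 : ¬(x = u ∧ s = v) := by tauto
      have a5 : ¬(s = u ∧ x = v) := by tauto
      simp [a3, a4, a5]
    · simp [a3]
  have live : ∀ y : Lb, 0 < g1 n f T 0 y → y.1 ≠ 0 → y.1 = 2 ∧ y.2.2 = 0 := by
    rintro ⟨i, x, s⟩ h h'
    simp only [g1, Pi.zero_apply] at h h' ⊢
    split_ifs at h <;> omega
  have e2 : g1 n f T 0 - chi s((0, u, v), (2, u, 0)) - chi s((0, v, u), (2, v, 0)) =
      g1 n f T 0 - chi s((0, u, v), (0, v, u)) - chi s((2, u, 0), (2, v, 0)) :=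
    chi_swap _ (by simp) (by simp) (by simp [h1]) (by simp [h1])
  rw [e, F_new (w := sw (wT num den T)) (w' := sw (wT num den (insert (u, v) T)))
      (u := (2, u, 0)) (v := (2, v, 0)) _
      (by simp [S1]; omega) (by simp [S1]; omega) (by simp [wT, w1, hT, hT']),
    F_exp2 (a := (0, u, v)) (b := (0, v, u)) (c := (2, u, 0)) _ (by simp [S1]; omega)
      (by simp [S1]; omega) (by simp [S1]; omega) (by simp) (by simp [g1, hu, hv, h1, hT, hT']),
    F_exp3 (g := g1 n f T 0 - chi s((0, u, v), (2, u, 0))) (a := (0, v, u)) (b := (2, v, 0)) _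
      (by simp [S1]; omega) (by simp [S1]; omega)
      (by simp [g1, chi_mk, hu, hv, h1.symm, hT, hT']), e2]
  · have : (den u v : ℝ) ≠ 0 := by exact_mod_cast hd
    simp [wT, w1, huv, h2, hT', h1.symm]
    field_simp
  · rintro ⟨i, x, s⟩ - a1 a2
    have a3 := chi_nonneg s(((0, u, v) : Lb), (2, u, 0)) (i, x, s)
    rw [Pi.sub_apply] at a2
    by_cases a4 : i = 0
    · subst a4
      have a5 : ¬(x < s ∧ v = s ∧ u = x) := by
        rintro ⟨-, rfl, rfl⟩
        simp [g1, chi_mk, hu, hv, h1, hT, hT'] at a2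
      simp [wT, w1, h2, a5]
    · obtain ⟨rfl, rfl⟩ : i = 2 ∧ s = 0 := live (i, x, s) (by omega) a4
      have : x ≠ v := by simpa using a1
      simp [wT, w1, this]
  · rintro ⟨i, x, s⟩ - a1 a2 a3
    by_cases a4 : i = 0
    · subst a4
      have a5 : ¬(x = v ∧ s = u) := by simpa using a1
      have a6 : ¬(x < s ∧ u = s ∧ v = x) := by omega
      simp [wT, w1, a5, a6]
    · obtain ⟨rfl, rfl⟩ : i = 2 ∧ s = 0 := live (i, x, s) a3 a4
      have : x ≠ u := by simpa using a2
      simp [wT, w1, this]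
  · intro e he
    induction e using Sym2.ind with
    | _ x y =>
      obtain ⟨i, x, s⟩ := x
      obtain ⟨j, y, t⟩ := y
      simp only [ne_eq, Sym2.eq_iff, Prod.mk.injEq, not_or] at he
      simp only [sw_mk, wT, mem_insert, Prod.mk.injEq]
      congr 2 <;> refine if_congr (by tauto) rfl rfl

/-- total weight of the graphs on `{0, …, n - 1}` with degrees `f` -/
noncomputable def FS (n : ℕ) (num den : ℕ → ℕ → ℕ) (f : ℕ → ℕ) : ℝ :=
  F (range n) (sw fun i j => if i < j then (num i j : ℝ) / den i j else 0)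
    fun v => if v < n then f v else 0

/-- the label is a vertex of the gadget graph -/
def lv (f : ℕ → ℕ) (x : Lb) : Bool := if x.1 = 0 then x.2.1 ≠ x.2.2 else x.2.2 < f x.2.1

theorem degrees {n : ℕ} {num den : ℕ → ℕ → ℕ} {f : ℕ → ℕ} (hf : ∀ v < n, f v ≤ n)
    (hd : ∀ u < n, ∀ v < n, den u v ≠ 0) :
    Hf ((range 2 ×ˢ range n ×ˢ range n).filter fun x => lv f x) (w1 num den) =
      (∏ v ∈ range n, (f v).factorial * ∏ u ∈ range v, den u v : ℕ) * FS n num den f := by
  have hA := chain (range n) f (fun c => F (S1 n) (sw (wT num den ∅)) (g1 n f ∅ c))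
    (fun v j => (f v : ℝ) - j) fun c v hv hc =>
      stepA num den c (mem_range.1 hv) hc (hf v (mem_range.1 hv))
  have hB : ∀ T : Finset (ℕ × ℕ), (∀ p ∈ T, p.1 < p.2 ∧ p.2 < n) →
      F (S1 n) (sw (wT num den ∅)) (g1 n f ∅ 0) =
        (∏ p ∈ T, (den p.1 p.2 : ℝ)) * F (S1 n) (sw (wT num den T)) (g1 n f T 0) := by
    intro T
    induction T using Finset.induction_on with
    | empty => simp
    | insert p T hp ih =>
      intro h
      have h1 := h p (mem_insert_self p T)
      rw [ih fun q hq => h q (mem_insert_of_mem hq), prod_insert hp,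
        stepB f h1.1 h1.2 hp (fun h2 => by have := (h _ (mem_insert_of_mem h2)).1; omega)
          (hd _ (by omega) _ h1.2)]
      ring
  have h1 : Hf ((range 2 ×ˢ range n ×ˢ range n).filter fun x => lv f x) (w1 num den) =
      F (S1 n) (sw (wT num den ∅)) (g1 n f ∅ fun u => if u ∈ range n then f u else 0) := by
    have e : g1 n f ∅ (fun u => if u ∈ range n then f u else 0) =
        ind ((range 2 ×ˢ range n ×ˢ range n).filter fun x => lv f x) := by
      funext ⟨i, x, s⟩
      have := hf x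
      simp only [g1, ind, mem_filter, mem_product, mem_range]
      simp only [lv]
      by_cases a1 : x < n
      · by_cases a2 : i = 0
        · simp [a1, a2]
        · simp only [a1, a2, if_true, if_false, decide_eq_true_eq, true_and, sub_self, ite_self]
          split_ifs <;> omega
      · simp [a1]
    have e' : wT num den ∅ = fun a b => (w1 num den a b : ℝ) := by
      funext a b
      simp [wT]
    rw [e, e', Hf, eq_comm]
    refine F_subset (fun x hx => ?_) _ fun a _ h => ?_
    · simp only [S1, mem_filter, mem_product, mem_range] at hx ⊢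
      omega
    · by_contra h1
      simp only [ind, h1, if_false] at h
      omega
  have inj : Injective fun u : ℕ => ((2, u, 0) : Lb) := fun a b h => by simpa using h
  let T := (range n ×ˢ range n).filter fun p => p.1 < p.2
  have hT : ∀ a b, (a, b) ∈ T ↔ a < b ∧ b < n := fun a b => by
    simp only [T, mem_filter, mem_product, mem_range]
    omega
  have live : ∀ y : Lb, g1 n f T 0 y ≠ 0 → y.1 = 2 ∧ y.2.2 = 0 ∧ y.2.1 < n := by
    rintro ⟨i, x, s⟩ h
    simp only [g1, Pi.zero_apply, hT] at h ⊢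
    split_ifs at h <;> omega
  have h2 : F (S1 n) (sw (wT num den T)) (g1 n f T 0) = FS n num den f := by
    rw [F_subset (S' := (range n).image fun u => ((2, u, 0) : Lb)), F_map inj, FS]
    · have : (fun a => g1 n f T 0 (2, a, 0)) = fun v => if v < n then (f v : ℤ) else 0 := by
        funext a
        simp [g1]
      rw [this]
      refine F_congr fun a ha b hb _ _ => ?_
      simp [wT, w1, hT, mem_range.1 ha, mem_range.1 hb]
    · rintro ⟨i, x, s⟩ h
      by_contra h3
      obtain ⟨rfl, rfl, -⟩ : i = 2 ∧ s = 0 ∧ x < n := live _ h3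
      exact h x rfl
    · intro x hx
      obtain ⟨u, hu, rfl⟩ := mem_image.1 hx
      simp only [S1, mem_product, mem_range] at hu ⊢
      omega
    · rintro ⟨i, x, s⟩ - h
      obtain ⟨rfl, rfl, h3⟩ : i = 2 ∧ s = 0 ∧ x < n := live _ h.ne'
      exact mem_image.2 ⟨x, mem_range.2 h3, rfl⟩
  have h3 : ∏ p ∈ T, (den p.1 p.2 : ℝ) = ∏ v ∈ range n, ∏ u ∈ range v, (den u v : ℝ) := by
    rw [prod_filter, prod_product_right]
    refine prod_congr rfl fun v hv => ?_
    rw [← prod_filter]
    refine prod_congr ?_ fun _ _ => rfl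
    ext u
    simp only [mem_filter, mem_range] at hv ⊢
    omega
  have h4 : ∀ k : ℕ, ∏ j ∈ range k, ((k : ℝ) - j) = k.factorial := fun k => by
    rw [← Nat.descFactorial_self, Nat.descFactorial_eq_prod_range, Nat.cast_prod]
    exact prod_congr rfl fun j hj => (Nat.cast_sub (mem_range.1 hj).le).symm
  rw [h1, hA, hB T fun p hp => (hT p.1 p.2).1 hp, h2, h3]
  simp only [h4]
  push_cast
  rw [prod_mul_distrib, mul_assoc]

end Vale.Agent.N308
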