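import Vale.Agent.N308.Defs
import Vale.Agent.N308.Gad
import Vale.Agent.P308.Main

/-!
The approximation scheme for weighted graphs with prescribed degrees: reduction to the number of
perfect matchings of the gadget graph.
-/

namespace Vale.Agent.N308

open Finset Vale.Agent.Lib.PTM Vale.Agent.Lib.PolyTime Vale.Agent.P308

theorem core_alg : ∃ C, 0 < C ∧ ∀ (n : ℕ) (G : SimpleGraph (Fin n)) (e l : ℕ), 0 < e →
    1 - (1 / 2 : ℝ) ^ l ≤ frq ((n + e + l + 2) ^ C) fun ρ =>
      |(alg ((⟨n⟩, adjBits G, ⟨e⟩, ⟨l⟩), ρ) : ℝ) - numPM G| ≤ numPM G / e := by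
  obtain ⟨C, hC, h⟩ := par_coins
  refine ⟨C, hC, fun n G e l he => ?_⟩
  have h0 : (0 : ℝ) ≤ (1 / 2) ^ l := by positivity
  unfold alg
  dsimp only
  by_cases h1 : n % 2 = 1
  · have : IsEmpty (PM (Fin n)) := isEmpty_PM_of_odd (by rw [Fintype.card_fin, Nat.odd_iff, h1])
    have h2 : numPM G = 0 := by rw [numPM_eq, nPM, univ_eq_empty, filter_empty, card_empty]
    simp only [if_pos h1, h2, frq_const]
    rw [ind_of (by simp)]
    linarith
  obtain ⟨k, rfl⟩ : ∃ k, n = 2 * k := ⟨n / 2, by omega⟩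
  by_cases h2 : k = 0
  · subst h2
    have h3 : numPM G = 1 := by
      rw [numPM_eq, nPM, filter_true_of_mem fun _ _ x => x.elim0, card_univ, card_PM]
      rfl
    simp only [if_neg h1, h3, if_true, frq_const]
    rw [ind_of (by simp)]
    linarith
  simp only [if_neg h1, if_neg (show ¬ 2 * k = 0 by omega), Nat.mul_div_cancel_left k two_pos]
  exact even_case (par_cond l (by omega) he) (par_n k e l) G (h k e l)

open Classical in
theorem numPM_eq_F {n : ℕ} (G : SimpleGraph (Fin n)) {w : Sym2 (Fin n) → ℝ}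
    (h : ∀ a b, w s(a, b) = if G.Adj a b then 1 else 0) :
    (numPM G : ℝ) = F univ w fun _ => 1 := by
  have hw : ∀ e, w e = if e ∈ G.edgeSet then 1 else 0 := fun e => by
    induction e using Sym2.ind with
    | _ a b => simpa using h a b
  have h1 : ∀ M : Finset (Sym2 (Fin n)), (if dg M = fun _ => 1 then ∏ e ∈ M, w e else 0) =
      if (↑M ⊆ G.edgeSet ∧ ∀ v : Fin n, ∃! e, e ∈ M ∧ v ∈ e) then 1 else 0 := fun M => by
    have h2 : (dg M = fun _ => 1) ↔ ∀ v : Fin n, ∃! e, e ∈ M ∧ v ∈ e := by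
      rw [funext_iff]
      refine forall_congr' fun v => ?_
      rw [dg_eq_card, Nat.cast_eq_one, card_eq_one_iff_existsUnique]
      simp only [mem_filter]
    simp only [hw, prod_boole, h2, ite_and, Set.subset_def, mem_coe]
    split_ifs <;> rfl
  rw [F, FE_def, sym2_univ, powerset_univ, sum_congr rfl fun M _ => h1 M, sum_boole,
    ← Fintype.card_subtype, ← Nat.card_eq_fintype_card, numPM, Nat.cast_inj]
  symm
  refine Nat.card_eq_of_bijective (fun M => ⟨↑M.1, M.2⟩) ⟨fun M M' h => ?_, fun E => ?_⟩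
  · exact Subtype.ext (coe_injective (congrArg Subtype.val h))
  · exact ⟨⟨E.1.toFinset, by simpa using E.2⟩, by simp⟩

/-- the adjacency matrix of the graph on a list of labels -/
def adjL {α : Type} (l : List α) (w : α → α → ℕ) : List Bool :=
  l.flatMap fun x => l.map fun y => decide (w x y + w y x = 1)

theorem exists_graph {α : Type} [DecidableEq α] {l : List α} (hl : l.Nodup) {w : α → α → ℕ}
    (hw : ∀ x y, w x y + w y x ≤ 1) :
    ∃ G : SimpleGraph (Fin l.length), adjBits G = adjL l w ∧ (numPM G : ℝ) = Hf l.toFinset w := by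
  classical
  have inj : Function.Injective l.get := List.nodup_iff_injective_get.1 hl
  refine ⟨⟨fun i j => w (l.get i) (l.get j) + w (l.get j) (l.get i) = 1,
    ⟨fun i j h => by rwa [add_comm]⟩, ⟨fun i h => by omega⟩⟩, ?_, ?_⟩
  · unfold adjBits adjL
    conv_rhs => rw [← List.map_get_finRange l]
    rw [List.flatMap_map]
    simp only [List.map_map]
    congr
    funext i
    congr
    funext j
    simp
  · have e : l.toFinset = univ.image l.get := by
      ext x
      simp [List.mem_iff_get]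
    have e' : (fun a => ind (univ.image l.get) (l.get a)) = fun _ => 1 := by
      funext a
      rw [ind, if_pos (mem_image_of_mem _ (mem_univ a))]
    rw [Hf, e, F_map inj, e']
    · refine numPM_eq_F _ fun a b => ?_
      have := hw (l.get a) (l.get b)
      rw [Sym2.map_mk, sw_mk, ← Nat.cast_add]
      split_ifs with h
      · rw [show w (l.get a) (l.get b) + w (l.get b) (l.get a) = 1 from h, Nat.cast_one]
      · have h' : ¬w (l.get a) (l.get b) + w (l.get b) (l.get a) = 1 := h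
        rw [Nat.cast_eq_zero]
        omega
    · intro b hb
      rw [ind, if_neg]
      intro h
      obtain ⟨a, -, h⟩ := mem_image.1 h
      exact hb a h

theorem word_eq (l : List ℕ) : word l = enc l := by
  induction l with
  | nil => rfl
  | cons a l ih => rw [word, ih, pair_eq]; rfl

/-- the accuracy parameter -/
def eQ (y : List ℕ) : ℕ := y.getD 1 0 / y.getD 0 0 + 1

/-- the confidence parameter -/
def lQ (y : List ℕ) : ℕ := Nat.size (y.getD 3 0 / y.getD 2 0)

theorem bound {ε δ : ℚ} (h1 : 0 < ε) (h2 : ε < 1) (h3 : 0 < δ) (h4 : δ < 1) (c : List ℕ)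
    {N k : ℕ} (hN : N ≤ (esize c + 2) ^ k) (C c' : ℕ) :
    (((esize (ε.num.natAbs :: ε.den :: δ.num.natAbs :: δ.den :: c) +
      (N + (ε.den / ε.num.natAbs + 1) + Nat.size (δ.den / δ.num.natAbs) + 2) ^ C + 2) ^ c' : ℕ) : ℝ)
      ≤ (esize c + 1 / (ε : ℝ) + Real.logb 2 (1 / (δ : ℝ)) + Real.logb 2 (ε.num * δ.num) + 2) ^
        (((k + 2) * C + 5) * c') := by
  have a1 := one_lt_inv h1 h2
  have a2 : 0 < Real.logb 2 (1 / (δ : ℝ)) := Real.logb_pos one_lt_two (one_lt_inv h3 h4)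
  have a3 : (1 : ℝ) ≤ ε.num := by exact_mod_cast Rat.num_pos.2 h1
  have a4 : (1 : ℝ) ≤ δ.num := by exact_mod_cast Rat.num_pos.2 h3
  have a5 := Real.logb_nonneg one_lt_two a3
  have a6 := Real.logb_nonneg one_lt_two a4
  have a7 : (0 : ℝ) ≤ esize c := Nat.cast_nonneg _
  have a9 : Real.logb 2 (1 / (ε : ℝ)) ≤ 1 / (ε : ℝ) := by
    rw [Real.logb_le_iff_le_rpow one_lt_two (by linarith)]
    have := one_add_mul_self_le_rpow_one_add (s := 1) (by norm_num) a1.le
    norm_num at this ⊢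
    linarith
  rw [Real.logb_mul (by linarith) (by linarith)]
  set μ := esize c + 1 / (ε : ℝ) + Real.logb 2 (1 / (δ : ℝ)) +
    (Real.logb 2 (ε.num : ℝ) + Real.logb 2 (δ.num : ℝ)) + 2 with hμ
  have a8 : 3 ≤ μ := by linarith
  have b1 : ((ε.den / ε.num.natAbs : ℕ) : ℝ) ≤ 1 / (ε : ℝ) := div_le' h1
  have b2 : (Nat.size (δ.den / δ.num.natAbs) : ℝ) ≤ Real.logb 2 (1 / (δ : ℝ)) + 1 :=
    (size_le (div_pos' h3 h4)).trans (add_le_add_left (Real.logb_le_logb_of_le one_lt_two
      (by exact_mod_cast div_pos' h3 h4) (div_le' h3)) 1)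
  have b0 : (N : ℝ) ≤ μ ^ k := by
    refine le_trans (Nat.cast_le.2 hN) ?_
    push_cast
    exact pow_le_pow_left₀ (by positivity) (by linarith) k
  have b3 : (((N + (ε.den / ε.num.natAbs + 1) + Nat.size (δ.den / δ.num.natAbs) + 2) ^ C : ℕ) : ℝ)
      ≤ μ ^ ((k + 2) * C) := by
    rw [Nat.cast_pow, pow_mul]
    refine pow_le_pow_left₀ (Nat.cast_nonneg _) ?_ _
    have d1 : (1 : ℝ) ≤ μ ^ k := one_le_pow₀ (by linarith)
    have d2 : μ ^ (k + 2) = μ ^ k * (μ * μ) := by ring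
    have d3 : μ + 4 ≤ μ * μ := by nlinarith
    simp only [Nat.cast_add, Nat.cast_one, Nat.cast_ofNat]
    nlinarith
  have b4 : (esize (ε.num.natAbs :: ε.den :: δ.num.natAbs :: δ.den :: c) : ℝ) ≤ 4 * μ ^ 2 := by
    have c2 := size_le (num_pos h1)
    have c3 := size_le (num_pos h3)
    have c4 := size_den h1
    have c5 := size_den h3
    rw [num_cast h1] at c2
    rw [num_cast h3] at c3
    simp only [esize_list_cons, esize_nat]
    push_cast
    have c8 : 3 * μ ≤ μ ^ 2 := by nlinarith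
    linarith
  generalize (N + (ε.den / ε.num.natAbs + 1) + Nat.size (δ.den / δ.num.natAbs) + 2) ^ C = t
    at b3 ⊢
  generalize esize (ε.num.natAbs :: ε.den :: δ.num.natAbs :: δ.den :: c) = L at b4 ⊢
  generalize (k + 2) * C = m at b3 ⊢
  clear_value μ
  rw [pow_mul]
  push_cast
  refine pow_le_pow_left₀ (by positivity) ?_ c'
  have d1 : (1 : ℝ) ≤ μ ^ m := one_le_pow₀ (by linarith)
  have d2 : (9 : ℝ) ≤ μ ^ 2 := by nlinarith
  have d3 : (27 : ℝ) ≤ μ ^ 3 := by nlinarith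
  have d4 : μ ^ (m + 5) = μ ^ m * μ ^ 2 * μ ^ 3 := by ring
  have d5 : μ ^ 2 ≤ μ ^ m * μ ^ 2 := le_mul_of_one_le_left (by positivity) d1
  have d6 : μ ^ m ≤ μ ^ m * μ ^ 2 := le_mul_of_one_le_right (by positivity) (by linarith)
  rw [d4]
  nlinarith

/-- **Reduction.** A quantity which is the number of perfect matchings of a graph computed in
polynomial time, divided by a number computed in polynomial time, has an FPRAS. -/
theorem fpras_of_graph {ι : Type} {code : ι → List ℕ} {Z : ι → ℝ} {N D : List ℕ → ℕ}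
    {adj : List ℕ → List Bool} (hN : PT ∅ N) (hb : PBd N) (hD : PT ∅ D) (hadj : PT ∅ adj)
    (H : ∀ x, 0 < D (code x) ∧ ∃ G : SimpleGraph (Fin (N (code x))),
      adjBits G = adj (code x) ∧ (numPM G : ℝ) = D (code x) * Z x) : FPRAS code Z := by
  obtain ⟨C, hC, h⟩ := core_alg
  obtain ⟨k, hk⟩ := hb.exists_PB
  have g : ∀ i, PT ∅ fun y : List ℕ => y.getD i 0 := fun i =>
    PT.getD PT.id (PT.const i) (PT.const 0)
  have he : PT ∅ eQ := PT.add (PT.div (g 1) (g 0)) (PT.const 1)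
  have hl : PT ∅ lQ := PT.natSize (PT.div (g 3) (g 2))
  have hd : PT ∅ fun y : List ℕ => y.drop 4 := PT.drop PT.id (PT.const 4)
  have ht : PT ∅ fun y : List ℕ => (N (y.drop 4) + eQ y + lQ y + 2) ^ C :=
    PT.powConst (PT.add (PT.add (PT.add (hN.comp hd) he) hl) (PT.const 2)) C
  have hun : ∀ {g : List ℕ → ℕ}, PT ∅ g →
      PT ∅ fun s : List ℕ × List Bool => Un.mk (min (g s.1) s.2.length) := fun hg =>
    PT.mkUn (PT.min (hg.comp PT.fst') (PT.length PT.snd'))
      ((PBd.length (A := ∅) PT.snd').mono fun _ => min_le_right _ _)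
  have hF : PT ∅ fun s : List ℕ × List Bool => [alg ((Un.mk (min (N (s.1.drop 4)) s.2.length),
      adj (s.1.drop 4), Un.mk (min (eQ s.1) s.2.length), Un.mk (min (lQ s.1) s.2.length)), s.2),
      D (s.1.drop 4)] :=
    PT.cons (pt_alg.comp (((hun (hN.comp hd)).pair (((hadj.comp hd).comp PT.fst').pair
      ((hun he).pair (hun hl)))).pair PT.snd')) (PT.cons ((hD.comp hd).comp PT.fst') PT.nil)
  obtain ⟨M, c', HM⟩ := exists_machine ht hF
  refine ⟨M, ((k + 2) * C + 5) * c', fun x ε δ h1 h2 h3 h4 T hT => ?_⟩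
  have h4' : δ < 1 := h4.trans (by norm_num)
  rw [word_eq] at hT
  have b3 := Nat.cast_le.1 ((bound h1 h2 h3 h4' (code x) (hk (code x)) C c').trans hT)
  obtain ⟨h5, h6⟩ := HM (ε.num.natAbs :: ε.den :: δ.num.natAbs :: δ.den :: code x) T b3
  obtain ⟨hD0, G, hG, hZ⟩ := H x
  rw [input, word_eq]
  refine ⟨h5, ?_⟩
  rw [frq_eq T fun ρ => ∃ a b : ℕ, 0 < b ∧ (M.run (enc
      (ε.num.natAbs :: ε.den :: δ.num.natAbs :: δ.den :: code x)) ρ).stk 0 = word [a, b] ∧
      (1 - ε : ℝ) * Z x ≤ a / b ∧ (a / b : ℝ) ≤ (1 + ε) * Z x,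
    h6 fun w => ∃ a b : ℕ, 0 < b ∧ w = word [a, b] ∧
      (1 - ε : ℝ) * Z x ≤ a / b ∧ (a / b : ℝ) ≤ (1 + ε) * Z x]
  refine mul_le_mul_of_nonneg_right (le_trans ?_ ((h _ G (eP (inp G ε δ)) (lP (inp G ε δ))
    (Nat.succ_pos _)).trans (frq_mono fun ρ hρ h => ?_))) (by positivity)
  · have := lP_ok G (ε := ε) h3
    linarith
  · have h7 : N (code x) + eP (inp G ε δ) + lP (inp G ε δ) + 2 ≤ ρ.length :=
      hρ ▸ Nat.le_self_pow hC.ne' _
    have h8 := mul_le_mul_of_nonneg_left (eP_ok G (δ := δ) h1) (Nat.cast_nonneg (numPM G))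
    have h9 : (0 : ℝ) < D (code x) := by exact_mod_cast hD0
    rw [mul_one_div] at h8
    rw [abs_le, hG] at h
    refine ⟨_, _, hD0, (word_eq _).symm, ?_⟩
    change _ ≤ ((alg ((⟨min (N (code x)) ρ.length⟩, adj (code x),
      ⟨min (eP (inp G ε δ)) ρ.length⟩, ⟨min (lP (inp G ε δ)) ρ.length⟩), ρ) : ℕ) : ℝ) / _ ∧
      ((alg ((⟨min (N (code x)) ρ.length⟩, adj (code x), ⟨min (eP (inp G ε δ)) ρ.length⟩,
        ⟨min (lP (inp G ε δ)) ρ.length⟩), ρ) : ℕ) : ℝ) / _ ≤ _
    rw [min_eq_left (by omega), min_eq_left (by omega), min_eq_left (by omega), le_div_iff₀ h9,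
      div_le_iff₀ h9, mul_assoc, mul_assoc, mul_comm (Z x), ← hZ]
    exact ⟨by linarith [h.1], by linarith [h.2]⟩

theorem prod_list_range (f : ℕ → ℕ) (n : ℕ) : ((List.range n).map f).prod = ∏ i ∈ range n, f i := by
  induction n with
  | zero => rfl
  | succ n ih => simp [List.range_succ, prod_range_succ, ih]

/-- the labels of the subdivided graph -/
def l1 (n : ℕ) (f : ℕ → ℕ) : List Lb :=
  ((List.range 2) ×ˢ (List.range n) ×ˢ (List.range n)).filter (lv f)

/-- the number of bits of the weights -/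
def bitsL {α : Type} (l : List α) (w : α → α → ℕ) : ℕ :=
  Nat.size (l.flatMap fun x => l.map fun y => w x y).sum

theorem pt_prod {X α β : Type} [Enc X] [Enc α] [Enc β] {l : X → List α} {l' : X → List β}
    (h : PT ∅ l) (h' : PT ∅ l') : PT ∅ fun x => l x ×ˢ l' x :=
  PT.flatMap (f := fun x a => (l' x).map fun b => (a, b)) h
    (PT.map (f := fun (p : X × α) b => (p.2, b)) (h'.comp PT.fst') (PT.fst'.snd.pair PT.snd'))

theorem pt_tab {X α β : Type} [Enc X] [Enc α] [Enc β] {l : X → List α} {w : X → α → α → β}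
    (h : PT ∅ l) (hw : PT ∅ fun p : X × α × α => w p.1 p.2.1 p.2.2) :
    PT ∅ fun x => (l x).flatMap fun a => (l x).map fun b => w x a b :=
  PT.flatMap (f := fun x a => (l x).map fun b => w x a b) h
    (PT.map (f := fun (p : X × α) b => w p.1 p.2 b) (h.comp PT.fst')
      (hw.comp (PT.fst'.fst.pair (PT.fst'.snd.pair PT.snd'))))

theorem pt_w1 {X : Type} [Enc X] {num den : X → ℕ → ℕ → ℕ}
    (h1 : PT ∅ fun p : X × ℕ × ℕ => num p.1 p.2.1 p.2.2)
    (h2 : PT ∅ fun p : X × ℕ × ℕ => den p.1 p.2.1 p.2.2) :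
    PT ∅ fun p : X × Lb × Lb => w1 (num p.1) (den p.1) p.2.1 p.2.2 := by
  have x1 : PT ∅ fun p : X × Lb × Lb => p.2.1.1 := PT.snd'.fst.fst
  have x2 : PT ∅ fun p : X × Lb × Lb => p.2.1.2.1 := PT.snd'.fst.snd.fst
  have x3 : PT ∅ fun p : X × Lb × Lb => p.2.1.2.2 := PT.snd'.fst.snd.snd
  have y1 : PT ∅ fun p : X × Lb × Lb => p.2.2.1 := PT.snd'.snd.fst
  have y2 : PT ∅ fun p : X × Lb × Lb => p.2.2.2.1 := PT.snd'.snd.snd.fst
  have y3 : PT ∅ fun p : X × Lb × Lb => p.2.2.2.2 := PT.snd'.snd.snd.snd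
  exact PT.ite (PT.eqNat y1 (PT.const 0)) (PT.ite (PT.eqNat x1 (PT.const 0))
    (PT.ite (PT.decide_and (PT.lt x2 x3) (PT.decide_and (PT.eqNat y2 x3) (PT.eqNat y3 x2)))
      (h2.comp (PT.fst'.pair (x2.pair x3))) (PT.const 0))
    (PT.ite (PT.eqNat x2 y2) (PT.ite (PT.lt y2 y3) (h1.comp (PT.fst'.pair (y2.pair y3)))
      (PT.const 1)) (PT.const 0))) (PT.const 0)

theorem pt_w2 {X : Type} [Enc X] {w : X → Lb → Lb → ℕ}
    (h : PT ∅ fun p : X × Lb × Lb => w p.1 p.2.1 p.2.2) :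
    PT ∅ fun p : X × (Lb × ℕ) × Lb × ℕ => w2 (w p.1) 0 p.2.1 p.2.2 := by
  have x1 : PT ∅ fun p : X × (Lb × ℕ) × Lb × ℕ => p.2.1.1 := PT.snd'.fst.fst
  have x2 : PT ∅ fun p : X × (Lb × ℕ) × Lb × ℕ => p.2.1.2 := PT.snd'.fst.snd
  have y1 : PT ∅ fun p : X × (Lb × ℕ) × Lb × ℕ => p.2.2.1 := PT.snd'.snd.fst
  have y2 : PT ∅ fun p : X × (Lb × ℕ) × Lb × ℕ => p.2.2.2 := PT.snd'.snd.snd
  have e : PT ∅ fun p : X × (Lb × ℕ) × Lb × ℕ => decide (p.2.1.1 = p.2.2.1) :=
    (PT.decide_and (PT.eqNat x1.fst y1.fst) (PT.decide_and (PT.eqNat x1.snd.fst y1.snd.fst)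
      (PT.eqNat x1.snd.snd y1.snd.snd))).congr fun p => by simp only [Prod.ext_iff]
  have ev := PT.eqNat (PT.mod x2 (PT.const 2)) (PT.const 0)
  have hw := h.comp (PT.fst'.pair (x1.pair y1))
  refine (PT.ite (PT.odd y2) (PT.ite (PT.decide_and e (PT.decide_and ev
    (PT.le x2 (PT.add y2 (PT.const 1))))) (PT.const 1) (PT.const 0))
    (PT.ite (PT.decide_and (PT.eqNat y2 (PT.const 0)) ev) (PT.ite (PT.eqNat x2 (PT.const 0))
      (PT.const 0) (PT.bitNat hw (PT.sub (PT.half x2) (PT.const 1)))) (PT.const 0))).congr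
    fun p => ?_
  simp only [w2, Pi.zero_apply, pow_zero, Nat.mod_one, ite_self]

/-- **Weighted graphs with prescribed degrees.** -/
theorem master {ι : Type} {code : ι → List ℕ} {Z : ι → ℝ} {n : List ℕ → ℕ}
    {num den : List ℕ → ℕ → ℕ → ℕ} {f : List ℕ → ℕ → ℕ} (hn : PT ∅ n) (hb : PBd n)
    (h1 : PT ∅ fun p : List ℕ × ℕ × ℕ => num p.1 p.2.1 p.2.2)
    (h2 : PT ∅ fun p : List ℕ × ℕ × ℕ => den p.1 p.2.1 p.2.2)
    (h3 : PT ∅ fun p : List ℕ × ℕ => f p.1 p.2) (hf : ∀ c, ∀ v < n c, f c v ≤ n c)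
    (hd : ∀ x, ∀ u < n (code x), ∀ v < n (code x), den (code x) u v ≠ 0)
    (hZ : ∀ x, Z x = FS (n (code x)) (num (code x)) (den (code x)) (f (code x))) :
    FPRAS code Z := by
  have r := PT.range hn hb
  have a1 : PT ∅ fun c => l1 (n c) (f c) := by
    refine PT.filter (f := fun c => lv (f c)) (pt_prod (PT.const _) (pt_prod r r)) ?_
    have x2 : PT ∅ fun p : List ℕ × Lb => p.2.2.1 := PT.snd'.snd.fst
    have x3 : PT ∅ fun p : List ℕ × Lb => p.2.2.2 := PT.snd'.snd.snd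
    exact PT.ite (PT.eqNat PT.snd'.fst (PT.const 0)) (PT.decide_not (PT.eqNat x2 x3))
      (PT.lt x3 (h3.comp (PT.fst'.pair x2)))
  have a2 := pt_w1 h1 h2
  have a3 := PT.sum (pt_tab (w := fun c => w1 (num c) (den c)) a1 a2)
  have a4 : PT ∅ fun c => l1 (n c) (f c) ×ˢ
      List.range (2 * bitsL (l1 (n c) (f c)) (w1 (num c) (den c)) + 1) :=
    pt_prod a1 (PT.range (PT.add (PT.double (PT.natSize a3)) (PT.const 1))
      (((PBd.const 2).mul (a3.pbd.mono fun c => (esize_nat _).ge)).add (PBd.const 1)))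
  have a5 := pt_w2 (w := fun c => w1 (num c) (den c)) a2
  have a6 : PT ∅ fun c => ((List.range (n c)).map fun v =>
      (min (f c v) (n c)).factorial * ((List.range (min v (n c))).map fun u => den c u v).prod).prod
      := by
    have b1 := hn.comp (PT.fst' : PT ∅ fun p : List ℕ × ℕ => p.1)
    have b2 := hb.comp (PT.fst' : PT ∅ fun p : List ℕ × ℕ => p.1)
    refine PT.prod (PT.map (f := fun c v => (min (f c v) (n c)).factorial *
      ((List.range (min v (n c))).map fun u => den c u v).prod) r (PT.mul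
      (PT.factorial (PT.min h3 b1) (b2.mono fun _ => min_le_right _ _)) (PT.prod
        (PT.map (f := fun (p : List ℕ × ℕ) u => den p.1 u p.2)
          (PT.range (PT.min PT.snd' b1) (b2.mono fun _ => min_le_right _ _))
          (h2.comp (PT.fst'.fst.pair (PT.snd'.pair PT.fst'.snd)))))))
  refine fpras_of_graph (PT.length a4) (PBd.length a4) a6
    (pt_tab (w := fun c x y => decide (w2 (w1 (num c) (den c)) 0 x y +
      w2 (w1 (num c) (den c)) 0 y x = 1)) a4 (PT.eqNat (PT.add a5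
        (a5.comp (PT.fst'.pair (PT.snd'.snd.pair PT.snd'.fst)))) (PT.const 1))) fun x => ?_
  have hd := hd x
  have hf := hf (code x)
  rw [hZ x]
  generalize n (code x) = n, num (code x) = num, den (code x) = den, f (code x) = f at hd hf ⊢
  have e : ((List.range n).map fun v =>
      (min (f v) n).factorial * ((List.range (min v n)).map fun u => den u v).prod).prod =
      ∏ v ∈ range n, (f v).factorial * ∏ u ∈ range v, den u v := by
    rw [prod_list_range]
    refine prod_congr rfl fun v hv => ?_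
    rw [mem_range] at hv
    rw [min_eq_left (hf v hv), min_eq_left hv.le, prod_list_range]
  have nd : (l1 n f).Nodup :=
    (List.nodup_range.product (List.nodup_range.product List.nodup_range)).filter _
  have e1 : (l1 n f).toFinset = (range 2 ×ˢ range n ×ˢ range n).filter fun x => lv f x := by
    ext ⟨i, u, v⟩
    simp [l1]
  rw [e]
  refine ⟨prod_pos fun v hv => Nat.mul_pos (Nat.factorial_pos _) (prod_pos fun u hu => ?_), ?_⟩
  · rw [mem_range] at hu hv
    exact Nat.pos_of_ne_zero (hd u (by omega) v hv)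
  obtain ⟨G, hG, hG'⟩ := exists_graph (nd.product (List.nodup_range
    (n := 2 * bitsL (l1 n f) (w1 num den) + 1))) (w2_le (w1 num den))
  refine ⟨G, hG, ?_⟩
  have e2 : (l1 n f ×ˢ List.range (2 * bitsL (l1 n f) (w1 num den) + 1)).toFinset =
      (l1 n f).toFinset ×ˢ range (2 * bitsL (l1 n f) (w1 num den) + 1) := by
    ext ⟨a, b⟩
    simp
  rw [hG', e2, binary, e1, degrees hf hd]
  · rintro ⟨i, u, v⟩ -
    simp only [w1]
    split_ifs <;> omega
  · intro a ha b hb
    refine lt_of_le_of_lt (List.single_le_sum (fun _ _ => Nat.zero_le _) _ ?_) (Nat.lt_size_self _)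
    exact List.mem_flatMap.2 ⟨a, List.mem_toFinset.1 ha, List.mem_map.2
      ⟨b, List.mem_toFinset.1 hb, rfl⟩⟩

end Vale.Agent.N308
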