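import Vale.Agent.Lib.MathlibUsed

/-!
Weighted edge sets with prescribed degrees: recursion, expansion at a vertex, relabelling.
-/

namespace Vale.Agent.N308

open Finset

variable {α β : Type} [DecidableEq α] [DecidableEq β]

/-- the indicator of the ends of an edge -/
def chi (e : Sym2 α) (v : α) : ℤ := if v ∈ e then 1 else 0

/-- the degrees of a set of edges -/
def dg (M : Finset (Sym2 α)) : α → ℤ := ∑ e ∈ M, chi e

open Classical in
/-- total weight of the subsets of `E` with degrees `g` -/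
noncomputable def FE (E : Finset (Sym2 α)) (w : Sym2 α → ℝ) (g : α → ℤ) : ℝ :=
  ∑ M ∈ E.powerset, if dg M = g then ∏ e ∈ M, w e else 0

theorem FE_def (E : Finset (Sym2 α)) (w : Sym2 α → ℝ) (g : α → ℤ) [∀ M, Decidable (dg M = g)] :
    FE E w g = ∑ M ∈ E.powerset, if dg M = g then ∏ e ∈ M, w e else 0 :=
  sum_congr rfl fun _ _ => by congr

theorem chi_nonneg (e : Sym2 α) (v : α) : 0 ≤ chi e v := by unfold chi; split_ifs <;> simp

theorem chi_of_mem {e : Sym2 α} {v : α} (h : v ∈ e) : chi e v = 1 := if_pos h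

theorem chi_mk (a b v : α) : chi s(a, b) v = if v = a ∨ v = b then 1 else 0 := by
  simp only [chi, Sym2.mem_iff]

theorem dg_apply (M : Finset (Sym2 α)) (v : α) : dg M v = ∑ e ∈ M, chi e v := by
  rw [dg, Finset.sum_apply]

theorem dg_nonneg (M : Finset (Sym2 α)) (v : α) : 0 ≤ dg M v := by
  rw [dg_apply]; exact sum_nonneg fun e _ => chi_nonneg e v

theorem dg_eq_card (M : Finset (Sym2 α)) (v : α) : dg M v = (M.filter fun e => v ∈ e).card := by
  rw [dg_apply, card_filter]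
  push_cast
  rfl

theorem dg_pos {M : Finset (Sym2 α)} {e : Sym2 α} (he : e ∈ M) {v : α} (hv : v ∈ e) :
    0 < dg M v := by
  rw [dg_eq_card]
  exact_mod_cast card_pos.2 ⟨e, mem_filter.2 ⟨he, hv⟩⟩

open Classical in
theorem FE_empty (w : Sym2 α → ℝ) (g : α → ℤ) : FE ∅ w g = if g = 0 then 1 else 0 := by
  simp only [FE, powerset_empty, sum_singleton, dg, sum_empty, prod_empty, eq_comm]
  congr

theorem FE_insert {E : Finset (Sym2 α)} {e : Sym2 α} (h : e ∉ E) (w : Sym2 α → ℝ) (g : α → ℤ) :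
    FE (insert e E) w g = FE E w g + w e * FE E w (g - chi e) := by
  unfold FE
  rw [sum_powerset_insert h, mul_sum]
  congr 1
  refine sum_congr rfl fun M hM => ?_
  have h1 : e ∉ M := fun h' => h (mem_powerset.1 hM h')
  have h2 : dg (insert e M) = g ↔ dg M = g - chi e := by
    rw [dg, sum_insert h1, eq_sub_iff_add_eq, add_comm]
    rfl
  rw [prod_insert h1]
  by_cases h3 : dg M = g - chi e
  · rw [if_pos h3, if_pos (h2.2 h3)]
  · rw [if_neg h3, if_neg (mt h2.1 h3), mul_zero]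

theorem FE_neg (E : Finset (Sym2 α)) (w : Sym2 α → ℝ) {g : α → ℤ} {v : α} (h : g v < 0) :
    FE E w g = 0 :=
  sum_eq_zero fun M _ => if_neg fun h' => by
    have := dg_nonneg M v
    rw [h'] at this
    omega

theorem FE_congr {E : Finset (Sym2 α)} {w w' : Sym2 α → ℝ} {g : α → ℤ}
    (h : ∀ e ∈ E, (∀ v ∈ e, 0 < g v) → w e = w' e) : FE E w g = FE E w' g := by
  refine sum_congr rfl fun M hM => ?_
  split_ifs with h1
  · exact prod_congr rfl fun e he => h e (mem_powerset.1 hM he) fun v hv => h1 ▸ dg_pos he hv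
  · rfl

theorem FE_subset {E E' : Finset (Sym2 α)} (hE : E' ⊆ E) {w : Sym2 α → ℝ} {g : α → ℤ}
    (h : ∀ e ∈ E, e ∉ E' → (∀ v ∈ e, 0 < g v) → w e = 0) : FE E w g = FE E' w g := by
  symm
  refine sum_subset (powerset_mono.2 hE) fun M hM h1 => ?_
  split_ifs with h2
  · obtain ⟨e, he, h3⟩ := not_subset.1 (mt mem_powerset.2 h1)
    exact prod_eq_zero he (h e (mem_powerset.1 hM he) h3 fun v hv => h2 ▸ dg_pos he hv)
  · rfl

/-- double counting of the edges at `a` -/
theorem FE_dc (E : Finset (Sym2 α)) (w : Sym2 α → ℝ) (g : α → ℤ) (a : α) :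
    g a * FE E w g = ∑ e ∈ E, chi e a * (w e * FE (E.erase e) w (g - chi e)) := by
  induction E using Finset.induction_on generalizing g with
  | empty =>
    rw [FE_empty, sum_empty]
    split_ifs with h
    · simp [h]
    · simp
  | insert e E he ih =>
    have h1 : ∑ e' ∈ E, chi e' a * (w e' * FE ((insert e E).erase e') w (g - chi e')) =
        ∑ e' ∈ E, chi e' a * (w e' * FE (E.erase e') w (g - chi e')) +
          w e * ∑ e' ∈ E, chi e' a * (w e' * FE (E.erase e') w (g - chi e - chi e')) := by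
      rw [mul_sum, ← sum_add_distrib]
      refine sum_congr rfl fun e' he' => ?_
      rw [erase_insert_of_ne (fun h : e = e' => he (h.symm ▸ he')), FE_insert (fun h => he (mem_of_mem_erase h)),
        sub_right_comm]
      ring
    rw [sum_insert he, erase_insert he, h1, ← ih, ← ih, FE_insert he, Pi.sub_apply]
    push_cast
    ring

theorem FE_exp (E : Finset (Sym2 α)) (w : Sym2 α → ℝ) (g : α → ℤ) (a : α)
    (h : ∀ e ∈ E, a ∈ e → w e ≠ 0 → ∃ v ∈ e, g v ≤ 1) :
    g a * FE E w g = ∑ e ∈ E, chi e a * (w e * FE E w (g - chi e)) := by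
  rw [FE_dc]
  refine sum_congr rfl fun e he => ?_
  by_cases h1 : a ∈ e
  · by_cases h2 : w e = 0
    · rw [h2, zero_mul, zero_mul]
    obtain ⟨v, h3, h4⟩ := h e he h1 h2
    rw [FE_subset (erase_subset e E) fun e' he' h5 h6 => ?_]
    obtain rfl : e' = e := by simpa [he'] using h5
    have := h6 v h3
    rw [Pi.sub_apply, chi_of_mem h3] at this
    omega
  · simp [chi, h1]

theorem chi_map {φ : α → β} (hφ : Function.Injective φ) (e : Sym2 α) (v : α) :
    chi (e.map φ) (φ v) = chi e v := by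
  induction e using Sym2.ind with
  | _ a b => simp only [Sym2.map_mk, chi_mk, hφ.eq_iff]

theorem FE_map {φ : α → β} (hφ : Function.Injective φ) (E : Finset (Sym2 α)) (w : Sym2 β → ℝ)
    {g : β → ℤ} (hg : ∀ b, (∀ a, φ a ≠ b) → g b = 0) :
    FE (E.image (Sym2.map φ)) w g = FE E (fun e => w (e.map φ)) fun a => g (φ a) := by
  induction E using Finset.induction_on generalizing g with
  | empty =>
    classical
    rw [image_empty, FE_empty, FE_empty]
    have : g = 0 ↔ (fun a => g (φ a)) = 0 := ?_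
    · simp only [this]
    refine ⟨fun h => by simp [h, funext_iff], fun h => funext fun b => ?_⟩
    by_cases h1 : ∃ a, φ a = b
    · obtain ⟨a, rfl⟩ := h1
      exact congrFun h a
    · exact hg b (not_exists.1 h1)
  | insert e E he ih =>
    have h1 : e.map φ ∉ E.image (Sym2.map φ) := by
      rwa [(Sym2.map.injective hφ).mem_finset_image]
    rw [image_insert, FE_insert h1, FE_insert he, ih hg, ih]
    · congr 3
      funext a
      simp only [Pi.sub_apply, chi_map hφ]
    · intro b hb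
      rw [Pi.sub_apply, hg b hb, chi, if_neg, sub_zero]
      intro h
      obtain ⟨a, -, h2⟩ := Sym2.mem_map.1 h
      exact hb a h2

/-- total weight of the edge sets on `S` with degrees `g` -/
noncomputable def F (S : Finset α) (w : Sym2 α → ℝ) (g : α → ℤ) : ℝ := FE S.sym2 w g

theorem F_neg (S : Finset α) (w : Sym2 α → ℝ) {g : α → ℤ} (v : α) (h : g v < 0) : F S w g = 0 :=
  FE_neg _ _ h

theorem F_congr {S : Finset α} {w w' : Sym2 α → ℝ} {g : α → ℤ}
    (h : ∀ a ∈ S, ∀ b ∈ S, 0 < g a → 0 < g b → w s(a, b) = w' s(a, b)) : F S w g = F S w' g := by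
  refine FE_congr fun e => ?_
  induction e using Sym2.ind with
  | _ a b =>
    intro h1 h2
    rw [mk_mem_sym2_iff] at h1
    exact h a h1.1 b h1.2 (h2 a (by simp)) (h2 b (by simp))

theorem F_subset {S S' : Finset α} (hS : S' ⊆ S) (w : Sym2 α → ℝ) {g : α → ℤ}
    (h : ∀ a ∈ S, 0 < g a → a ∈ S') : F S w g = F S' w g := by
  refine FE_subset (sym2_mono hS) fun e h1 h2 h3 => (h2 ?_).elim
  rw [mem_sym2_iff] at h1 ⊢
  exact fun a ha => h a (h1 a ha) (h3 a ha)

theorem F_map {φ : α → β} (hφ : Function.Injective φ) (S : Finset α) (w : Sym2 β → ℝ)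
    {g : β → ℤ} (hg : ∀ b, (∀ a, φ a ≠ b) → g b = 0) :
    F (S.image φ) w g = F S (fun e => w (e.map φ)) fun a => g (φ a) := by
  rw [F, sym2_image, FE_map hφ _ _ hg, F]

theorem sum_sym2_at {S : Finset α} {a : α} (ha : a ∈ S) (G : Sym2 α → ℝ) :
    ∑ e ∈ S.sym2, chi e a * G e = ∑ b ∈ S, G s(a, b) := by
  rw [← sum_image (s := S) (g := fun b => s(a, b)) (f := G)
    fun b _ b' _ h => Sym2.congr_right.1 h]
  symm
  refine sum_subset_zero_on_sdiff ?_ (fun e he => ?_) fun e he => ?_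
  · intro e he
    obtain ⟨b, hb, rfl⟩ := mem_image.1 he
    exact mk_mem_sym2_iff.2 ⟨ha, hb⟩
  · rw [chi, if_neg, Int.cast_zero, zero_mul]
    intro h
    obtain ⟨b, rfl⟩ := Sym2.mem_iff_exists.1 h
    rw [mem_sdiff, mk_mem_sym2_iff] at he
    exact he.2 (mem_image.2 ⟨b, he.1.2, rfl⟩)
  · obtain ⟨b, hb, rfl⟩ := mem_image.1 he
    rw [chi_of_mem (by simp), Int.cast_one, one_mul]

/-- expansion at a vertex -/
theorem F_exp {S : Finset α} (w : Sym2 α → ℝ) (g : α → ℤ) {a : α} (ha : a ∈ S)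
    (h : ∀ b ∈ S, w s(a, b) ≠ 0 → g a ≤ 1 ∨ g b ≤ 1) :
    g a * F S w g = ∑ b ∈ S, w s(a, b) * F S w (g - chi s(a, b)) := by
  rw [F, FE_exp, sum_sym2_at ha]
  · rfl
  intro e he h1 h2
  obtain ⟨b, rfl⟩ := Sym2.mem_iff_exists.1 h1
  rcases h b (mk_mem_sym2_iff.1 he).2 h2 with h3 | h3
  · exact ⟨a, by simp, h3⟩
  · exact ⟨b, by simp, h3⟩

theorem F_exp1 {S : Finset α} (w : Sym2 α → ℝ) {g : α → ℤ} {a : α} (ha : a ∈ S) (h : g a = 1) :
    F S w g = ∑ b ∈ S, w s(a, b) * F S w (g - chi s(a, b)) := by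
  rw [← F_exp w g ha fun _ _ _ => Or.inl h.le, h, Int.cast_one, one_mul]

/-- expansion at a vertex with two neighbours -/
theorem F_exp2 {S : Finset α} (w : Sym2 α → ℝ) {g : α → ℤ} {a b c : α} (ha : a ∈ S) (hb : b ∈ S)
    (hc : c ∈ S) (hbc : b ≠ c) (h : g a = 1)
    (h0 : ∀ y ∈ S, y ≠ b → y ≠ c → 0 < g y → w s(a, y) = 0) :
    F S w g = w s(a, b) * F S w (g - chi s(a, b)) + w s(a, c) * F S w (g - chi s(a, c)) := by
  rw [F_exp1 w ha h]
  refine sum_eq_add_of_mem b c hb hc hbc fun y hy h1 => ?_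
  by_cases h2 : 0 < g y
  · rw [h0 y hy h1.1 h1.2 h2, zero_mul]
  · rw [F_neg S w y, mul_zero]
    rw [Pi.sub_apply, chi_of_mem (by simp)]
    omega

/-- expansion at a vertex with one neighbour -/
theorem F_exp3 {S : Finset α} (w : Sym2 α → ℝ) {g : α → ℤ} {a b : α} (ha : a ∈ S) (hb : b ∈ S)
    (h : g a = 1) (h0 : ∀ y ∈ S, y ≠ b → 0 < g y → w s(a, y) = 0) :
    F S w g = w s(a, b) * F S w (g - chi s(a, b)) := by
  rw [F_exp1 w ha h]
  refine sum_eq_single_of_mem b hb fun y hy h1 => ?_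
  by_cases h2 : 0 < g y
  · rw [h0 y hy h1 h2, zero_mul]
  · rw [F_neg S w y, mul_zero]
    rw [Pi.sub_apply, chi_of_mem (by simp)]
    omega

/-- a new edge -/
theorem F_new {S : Finset α} {w w' : Sym2 α → ℝ} (g : α → ℤ) {u v : α} (hu : u ∈ S) (hv : v ∈ S)
    (h0 : w s(u, v) = 0) (h : ∀ e, e ≠ s(u, v) → w' e = w e) :
    F S w' g = F S w g + w' s(u, v) * F S w (g - chi s(u, v)) := by
  have h1 : s(u, v) ∈ S.sym2 := mk_mem_sym2_iff.2 ⟨hu, hv⟩
  have h2 : ∀ g, FE (S.sym2.erase s(u, v)) w' g = F S w g := fun g => by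
    rw [F, ← insert_erase h1, FE_insert (notMem_erase _ _), h0, zero_mul, add_zero, insert_erase h1]
    exact FE_congr fun e he _ => h e (ne_of_mem_erase he)
  rw [F, ← insert_erase h1, FE_insert (notMem_erase _ _), h2, h2]

/-- elimination of a matched pair `a`, `b`, where `a` has only one more neighbour `u` -/
theorem F_elim {S : Finset α} {w w' : Sym2 α → ℝ} {g : α → ℤ} {a b u : α} (ha : a ∈ S) (hb : b ∈ S)
    (hu : u ∈ S) (hab : a ≠ b) (hau : a ≠ u) (hbu : b ≠ u) (ga : g a = 1) (gb : g b = 1)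
    (gu : g u = 1) (h1 : w s(a, b) = 1) (h2 : ∀ y ∈ S, y ≠ b → y ≠ u → 0 < g y → w s(a, y) = 0)
    (h3 : w s(b, b) = 0) (h4 : w' s(u, u) = w s(u, u))
    (h5 : ∀ y ∈ S, y ≠ a → y ≠ b → y ≠ u → 0 < g y →
      w' s(u, y) = w s(u, y) + w s(a, u) * w s(b, y))
    (h6 : ∀ x ∈ S, ∀ y ∈ S, x ≠ u → y ≠ u → w' s(x, y) = w s(x, y)) :
    F S w' (g - chi s(a, b)) = F S w g := by
  have gu' : (g - chi s(a, b)) u = 1 := by
    rw [Pi.sub_apply, chi_mk, if_neg (by tauto), gu, sub_zero]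
  have gb' : (g - chi s(a, u)) b = 1 := by
    rw [Pi.sub_apply, chi_mk, if_neg (by tauto), gb, sub_zero]
  rw [F_exp2 w ha hb hu hbu ga h2, h1, one_mul, F_exp1 w' hu gu', F_exp1 w hu gu',
    F_exp1 w hb gb', mul_sum, ← sum_add_distrib]
  refine sum_congr rfl fun y hy => ?_
  have e1 : F S w' (g - chi s(a, b) - chi s(u, y)) = F S w (g - chi s(a, b) - chi s(u, y)) := by
    have : ∀ x, 0 < (g - chi s(a, b) - chi s(u, y)) x → x ≠ u := by
      rintro x hx rfl
      rw [Pi.sub_apply, gu', chi_of_mem (by simp)] at hx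
      omega
    exact F_congr fun x hx x' hx' p p' => h6 x hx x' hx' (this x p) (this x' p')
  rw [e1]
  by_cases yu : y = u
  · subst yu
    rw [h4, F_neg S w (g := g - chi s(a, y) - chi s(b, y)) y, mul_zero, mul_zero, add_zero]
    simp [chi_mk, gu]
  by_cases yb : y = b
  · subst yb
    rw [h3, F_neg S w y]
    · simp
    · simp [chi_mk, gb]
  by_cases ya : y = a
  · subst ya
    rw [F_neg S w y, F_neg S w y]
    · simp
    · simp [chi_mk, ga]
    · simp [chi_mk, ga]
  have e2 : g - chi s(a, u) - chi s(b, y) = g - chi s(a, b) - chi s(u, y) := by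
    funext x
    simp only [Pi.sub_apply, chi_mk]
    by_cases x1 : x = a <;> by_cases x2 : x = b <;> by_cases x3 : x = u <;>
      by_cases x4 : x = y <;> simp_all
  rw [e2]
  by_cases gy : 0 < g y
  · rw [h5 y hy ya yb yu gy]
    ring
  · rw [F_neg S w y]
    · simp
    · simp only [Pi.sub_apply, chi_mk, ya, yb, or_true, if_true, or_self, if_false]
      omega

/-- a vertex `v` gives one unit of its degree to a twin `t` -/
theorem F_split {S : Finset α} (w : Sym2 α → ℝ) {g g' : α → ℤ} {v t : α} (hv : v ∈ S) (ht : t ∈ S)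
    (gt : g t = 0) (gt' : g' t = 1) (gv' : g' v = g v - 1)
    (hg : ∀ x, x ≠ v → x ≠ t → g' x = g x) (h1 : ∀ y ∈ S, w s(t, y) = w s(v, y))
    (h2 : ∀ y ∈ S, w s(v, y) ≠ 0 → y ≠ v ∧ y ≠ t ∧ g y ≤ 1) : F S w g' = g v * F S w g := by
  rw [F_exp1 w ht gt', F_exp w g hv fun y hy h => Or.inr (h2 y hy h).2.2]
  refine sum_congr rfl fun y hy => ?_
  rw [h1 y hy]
  by_cases h3 : w s(v, y) = 0
  · rw [h3, zero_mul, zero_mul]
  obtain ⟨h4, h5, -⟩ := h2 y hy h3
  have h6 : v ≠ t := by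
    rintro rfl
    omega
  congr 2
  funext x
  simp only [Pi.sub_apply, chi_mk]
  by_cases x1 : x = v
  · subst x1
    simp [gv', h6, h4.symm]
  by_cases x2 : x = t
  · subst x2
    simp [gt, gt', x1, h5.symm]
  simp [hg x x1 x2, x1, x2]

/-- the weight of an edge is the sum of the weights of its two orientations -/
def sw (w : α → α → ℝ) : Sym2 α → ℝ := Sym2.lift ⟨fun a b => w a b + w b a, fun _ _ => add_comm _ _⟩

omit [DecidableEq α] in
@[simp] theorem sw_mk (w : α → α → ℝ) (a b : α) : sw w s(a, b) = w a b + w b a := rfl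

end Vale.Agent.N308
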