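import Vale.Agent.Lib.PTM.Defs
import Mathlib.Combinatorics.SimpleGraph.Matching
import Mathlib.Analysis.SpecialFunctions.Log.Base
import Mathlib.Data.NNRat.Lemmas

/-!
Fully polynomial randomised approximation schemes; perfect matchings, hafnians, graphs with
prescribed degrees, matchings with a given number of edges.
-/

namespace Vale.Agent.N308

open Vale.Agent.Lib.PTM

/-- A list of natural numbers as one word: the numbers in binary, each one self-delimiting. -/
def word : List ℕ → List Bool
  | [] => []
  | a :: l => pair a.bits (word l)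

/-- The input: numerators and denominators of `ε` and `δ`, then the instance `c`. -/
def input (c : List ℕ) (ε δ : ℚ) : List Bool :=
  word (ε.num.natAbs :: ε.den :: δ.num.natAbs :: δ.den :: c)

/-- The quantity `Z x`, for instances `x` given by the list of numbers `code x`, has a fully
polynomial randomised approximation scheme: one probabilistic Turing machine halts in time
polynomial in the bit length of the instance, `1 / ε` and `log (1 / δ)` (and the bit length of the
numerators of `ε`, `δ`), and with probability at least `1 - δ` it outputs a fraction `a / b` within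
the factor `1 ± ε` of `Z x`. -/
def FPRAS {ι : Type} (code : ι → List ℕ) (Z : ι → ℝ) : Prop :=
  ∃ (M : Machine) (d : ℕ), ∀ (x : ι) (ε δ : ℚ), 0 < ε → ε < 1 → 0 < δ → δ < 1 / 2 → ∀ T : ℕ,
    ((word (code x)).length + 1 / (ε : ℝ) + Real.logb 2 (1 / (δ : ℝ)) +
      Real.logb 2 (ε.num * δ.num) + 2) ^ d ≤ T →
    (∀ ρ : Fin T → Bool, (M.run (input (code x) ε δ) (List.ofFn ρ)).l = none) ∧
    (1 - δ : ℝ) * 2 ^ T ≤ Nat.card {ρ : Fin T → Bool // ∃ a b : ℕ, 0 < b ∧
      (M.run (input (code x) ε δ) (List.ofFn ρ)).stk 0 = word [a, b] ∧
      (1 - ε : ℝ) * Z x ≤ a / b ∧ (a / b : ℝ) ≤ (1 + ε) * Z x}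

/-- The entries of a square table, row after row. -/
def table {n : ℕ} (t : Fin n → Fin n → ℕ) : List ℕ :=
  (List.finRange n).flatMap fun i => (List.finRange n).map fun j => t i j

open Classical in
/-- A graph is given by the number of vertices and the adjacency matrix. -/
noncomputable def graphCode {n : ℕ} (G : SimpleGraph (Fin n)) : List ℕ :=
  n :: table fun i j => if G.Adj i j then 1 else 0

/-- A matrix of nonnegative rationals is given by its size, the numerators and the denominators. -/
def matrixCode {n : ℕ} (A : Matrix (Fin n) (Fin n) ℚ≥0) : List ℕ :=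
  n :: (table (fun i j => (A i j).num) ++ table fun i j => (A i j).den)

open Classical in
/-- The product of the entries `A i j` over the pairs `i < j` which are related by `r`. -/
noncomputable def weight {n : ℕ} (A : Matrix (Fin n) (Fin n) ℚ≥0) (r : Fin n → Fin n → Prop) : ℝ :=
  ∏ p : Fin n × Fin n with p.1 < p.2 ∧ r p.1 p.2, (A p.1 p.2 : ℝ)

open Classical in
/-- The hafnian: the sum over the perfect matchings `M` of the complete graph of the products of
the entries `A i j` over the edges `ij` of `M`. -/
noncomputable def haf {n : ℕ} (A : Matrix (Fin n) (Fin n) ℚ≥0) : ℝ :=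
  ∑ M : (⊤ : SimpleGraph (Fin n)).Subgraph with M.IsPerfectMatching, weight A M.Adj

open Classical in
/-- The same sum over the matchings with exactly `k` edges. -/
noncomputable def matchSum {n : ℕ} (A : Matrix (Fin n) (Fin n) ℚ≥0) (k : ℕ) : ℝ :=
  ∑ M : (⊤ : SimpleGraph (Fin n)).Subgraph with M.IsMatching ∧ M.edgeSet.ncard = k, weight A M.Adj

open Classical in
/-- The same sum over the simple graphs in which every vertex `v` has degree `f v`. -/
noncomputable def factorSum {n : ℕ} (A : Matrix (Fin n) (Fin n) ℚ≥0) (f : Fin n → ℕ) : ℝ :=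
  ∑ H : SimpleGraph (Fin n) with ∀ v, (H.neighborSet v).ncard = f v, weight A H.Adj

end Vale.Agent.N308
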