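import Vale.Agent.N308.Alg

/-!
The four counting problems as weighted graphs with prescribed degrees.
-/

namespace Vale.Agent.N308

open Finset Vale.Agent.Lib.PTM Vale.Agent.Lib.PolyTime Vale.Agent.P308 SimpleGraph

variable {n : ℕ}

/-- the weights of the edges -/
noncomputable def wA (A : Matrix (Fin n) (Fin n) ℚ≥0) : Sym2 (Fin n) → ℝ :=
  sw fun i j => if i < j then (A i j : ℝ) else 0

open Classical in
theorem weight_eq (A : Matrix (Fin n) (Fin n) ℚ≥0) (H : SimpleGraph (Fin n)) :
    weight A H.Adj = ∏ e ∈ H.edgeFinset, wA A e := by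
  refine prod_bij (fun p _ => s(p.1, p.2)) (fun p hp => ?_) (fun p hp q hq h => ?_)
    (fun e he => ?_) fun p hp => ?_
  · simpa using (mem_filter.1 hp).2.2
  · have h1 := (mem_filter.1 hp).2.1
    have h2 := (mem_filter.1 hq).2.1
    rcases Sym2.eq_iff.1 h with h | h
    · exact Prod.ext h.1 h.2
    · omega
  · induction e using Sym2.ind with
    | _ a b =>
      have h : H.Adj a b := by simpa using he
      rcases lt_or_gt_of_ne h.ne with h1 | h1
      · exact ⟨(a, b), by simp [h, h1], rfl⟩
      · exact ⟨(b, a), by simp [h.symm, h1], Sym2.eq_swap⟩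
  · have h1 := (mem_filter.1 hp).2.1
    simp [wA, h1, h1.le]

open Classical in
theorem nc_eq (H : SimpleGraph (Fin n)) (v : Fin n) : (H.neighborSet v).ncard = H.degree v := by
  rw [← card_neighborFinset_eq_degree, ← Set.ncard_coe_finset, coe_neighborFinset]

open Classical in
theorem F_eq_factorSum (A : Matrix (Fin n) (Fin n) ℚ≥0) (f : Fin n → ℕ) :
    F univ (wA A) (fun v => f v) = factorSum A f := by
  rw [F, FE_def, sym2_univ, powerset_univ, factorSum, sum_filter]
  symm
  refine sum_of_injOn (fun H => H.edgeFinset) (fun H _ H' _ h => edgeFinset_inj.1 h)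
    (fun _ _ => mem_univ _) (fun M _ hM => ?_) fun H _ => ?_
  · have : ∃ e ∈ M, e.IsDiag := by
      by_contra h
      refine hM ⟨fromEdgeSet M, mem_coe.2 (mem_univ _), ?_⟩
      ext e
      simp only [mem_edgeFinset, edgeSet_fromEdgeSet, Set.mem_sdiff, mem_coe,
        Sym2.mem_diagSet]
      exact ⟨fun h => h.1, fun h1 => ⟨h1, fun h2 => h ⟨e, h1, h2⟩⟩⟩
    obtain ⟨e, h1, h2⟩ := this
    rw [prod_eq_zero h1, ite_self]
    induction e using Sym2.ind with
    | _ a b =>
      obtain rfl : a = b := by simpa using h2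
      simp [wA]
  · rw [weight_eq]
    refine if_congr ?_ rfl rfl
    rw [funext_iff]
    refine forall_congr' fun v => ?_
    rw [dg_eq_card, ← incidenceFinset_eq_filter, card_incidenceFinset_eq_degree, Nat.cast_inj,
      nc_eq]

theorem range_eq (n : ℕ) : range n = univ.image (Fin.val : Fin n → ℕ) := by
  ext i
  simp [Fin.exists_iff]

theorem F_range {A : Matrix (Fin n) (Fin n) ℚ≥0} {num den : ℕ → ℕ → ℕ}
    (h : ∀ i j : Fin n, (num i j : ℝ) / den i j = A i j) {g : ℕ → ℤ} {f : Fin n → ℕ}
    (h1 : ∀ v : Fin n, g v = f v) (h2 : ∀ v, n ≤ v → g v = 0) :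
    F (range n) (sw fun i j => if i < j then (num i j : ℝ) / den i j else 0) g =
      factorSum A f := by
  rw [range_eq, F_map Fin.val_injective, ← F_eq_factorSum, funext h1]
  · exact F_congr fun a _ b _ _ _ => by simp [wA, h]
  · exact fun b hb => h2 b (not_lt.1 fun h => hb ⟨b, h⟩ rfl)

theorem FS_eq {A : Matrix (Fin n) (Fin n) ℚ≥0} {num den : ℕ → ℕ → ℕ}
    (h : ∀ i j : Fin n, (num i j : ℝ) / den i j = A i j) {g : ℕ → ℕ} {f : Fin n → ℕ}
    (h1 : ∀ v : Fin n, g v = f v) : FS n num den g = factorSum A f :=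
  F_range h (fun v => by rw [if_pos v.2, h1]) fun v hv => if_neg (not_lt.2 hv)

theorem nc_le (H : SimpleGraph (Fin n)) (v : Fin n) :
    (H.neighborSet v).ncard ≤ 1 ↔ ∀ a b, H.Adj v a → H.Adj v b → a = b := by
  rw [Set.ncard_le_one_iff]
  exact ⟨fun h _ _ h1 h2 => h h1 h2, fun h _ _ h1 h2 => h _ _ h1 h2⟩

theorem sum_matching {G : SimpleGraph (Fin n)} (P : SimpleGraph (Fin n) → Prop)
    (ψ : SimpleGraph (Fin n) → ℝ) {s : Finset G.Subgraph} {t : Finset (SimpleGraph (Fin n))}
    (hs : ∀ M, M ∈ s ↔ M.IsMatching ∧ P M.spanningCoe)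
    (ht : ∀ H, H ∈ t ↔ H ≤ G ∧ (∀ v, (H.neighborSet v).ncard ≤ 1) ∧ P H) :
    ∑ M ∈ s, ψ M.spanningCoe = ∑ H ∈ t, ψ H := by
  refine sum_bij (fun M _ => M.spanningCoe) (fun M hM => ?_) (fun M hM M' hM' h => ?_)
    (fun H hH => ?_) fun _ _ => rfl
  · have h := (hs M).1 hM
    exact (ht _).2 ⟨M.spanningCoe_le, fun v => (nc_le _ v).2 fun a b => h.1.eq_of_adj_left, h.2⟩
  · have h1 := Subgraph.spanningCoe_inj.1 h
    refine Subgraph.ext ?_ h1
    rw [← ((hs M).1 hM).1.support_eq_verts, ← ((hs M').1 hM').1.support_eq_verts,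
      Subgraph.support, Subgraph.support, h1]
  · obtain ⟨h1, h2, h3⟩ := (ht H).1 hH
    refine ⟨⟨H.support, H.Adj, fun h => h1 h, fun h => ⟨_, h⟩, H.symm⟩, (hs _).2 ⟨?_, h3⟩, rfl⟩
    rintro v ⟨w, hw⟩
    exact ⟨w, hw, fun y hy => (nc_le H v).1 (h2 v) y w hy hw⟩

theorem pm_iff {G : SimpleGraph (Fin n)} (M : G.Subgraph) :
    M.IsPerfectMatching ↔ M.IsMatching ∧ ∀ v, (M.spanningCoe.neighborSet v).ncard = 1 := by
  simp only [nc_eq, degree_eq_one_iff_existsUnique_adj]
  exact ⟨fun h => ⟨h.1, Subgraph.isPerfectMatching_iff.1 h⟩,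
    fun h => Subgraph.isPerfectMatching_iff.2 h.2⟩

theorem haf_eq (A : Matrix (Fin n) (Fin n) ℚ≥0) : haf A = factorSum A fun _ => 1 := by
  refine sum_matching (fun H => ∀ v, (H.neighborSet v).ncard = 1) (fun H => weight A H.Adj)
    (fun M => ?_) fun H => ?_
  · simp only [mem_filter, mem_univ, true_and, pm_iff]
  · simp only [mem_filter, mem_univ, le_top, true_and]
    exact ⟨fun h => ⟨fun v => (h v).le, h⟩, fun h => h.2⟩

open Classical in
theorem card_pm (G : SimpleGraph (Fin n)) :
    (Nat.card {M : G.Subgraph // M.IsPerfectMatching} : ℝ) =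
      factorSum (fun i j => if G.Adj i j then 1 else 0) fun _ => 1 := by
  have h1 : ∀ H : SimpleGraph (Fin n),
      weight (fun i j => if G.Adj i j then 1 else 0) H.Adj = if H ≤ G then 1 else 0 := fun H => by
    have h2 : ∀ i j : Fin n, (((if G.Adj i j then 1 else 0 : ℚ≥0)) : ℝ) =
        if G.Adj i j then 1 else 0 := fun i j => by split_ifs <;> simp
    simp only [weight, h2, prod_boole, mem_filter, mem_univ, true_and]
    refine if_congr ⟨fun h a b h3 => ?_, fun h p h3 => h h3.2⟩ rfl rfl
    rcases lt_or_gt_of_ne h3.ne with h4 | h4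
    · exact h (a, b) ⟨h4, h3⟩
    · exact (h (b, a) ⟨h4, h3.symm⟩).symm
  unfold factorSum
  rw [sum_congr rfl fun H _ => h1 H, ← sum_filter, Nat.card_eq_fintype_card, Fintype.card_subtype,
    card_eq_sum_ones, Nat.cast_sum, Nat.cast_one]
  refine sum_matching (fun H => ∀ v, (H.neighborSet v).ncard = 1) (fun _ => 1)
    (fun M => ?_) fun H => ?_
  · simp only [mem_filter, mem_univ, true_and, pm_iff]
  · simp only [mem_filter, mem_univ, true_and]
    exact ⟨fun h => ⟨h.2, fun v => (h.1 v).le, h.1⟩, fun h => ⟨h.2.2, h.1⟩⟩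

theorem factorSum_min (A : Matrix (Fin n) (Fin n) ℚ≥0) (f : Fin n → ℕ) :
    (factorSum A fun v => min (f v) n) = factorSum A f := by
  classical
  unfold factorSum
  refine sum_congr (filter_congr fun H _ => forall_congr' fun v => ?_) fun _ _ => rfl
  have := H.degree_lt_card_verts v
  rw [Fintype.card_fin, ← nc_eq] at this
  dsimp only
  omega

/-! ### matchings with `k` edges: one more vertex -/

theorem FE_star {α : Type} [DecidableEq α] {E : Finset (Sym2 α)} {w : Sym2 α → ℝ} {z : α}
    (hE : ∀ e ∈ E, z ∉ e) (T : Finset α) (hz : z ∉ T) (hw : ∀ v ∈ T, w s(z, v) = 1) (g : α → ℤ) :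
    FE (E ∪ T.image fun v => s(z, v)) w g =
      ∑ U ∈ T.powerset, FE E w fun x => g x - ind U x - if x = z then #U else 0 := by
  induction T using Finset.induction_on generalizing g with
  | empty => simp [ind]
  | insert v T hv ih =>
    have h1 := fun g => ih (fun h => hz (mem_insert_of_mem h))
      (fun u hu => hw u (mem_insert_of_mem hu)) g
    have h2 : z ≠ v := fun h => hz (h ▸ mem_insert_self _ _)
    rw [image_insert, union_insert, FE_insert, sum_powerset_insert hv, h1, h1,
      hw v (mem_insert_self _ _), one_mul]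
    · congr 1
      refine sum_congr rfl fun U hU => ?_
      have h3 : v ∉ U := fun h => hv (mem_powerset.1 hU h)
      congr 1
      funext x
      simp only [Pi.sub_apply, chi_ne h2, ind, mem_insert, card_insert_of_notMem h3]
      by_cases a1 : x = v
      · subst a1
        simp [h3, h2.symm]
      · by_cases a2 : x = z <;> simp [a1, a2, h2]
        ring
    · simp only [mem_union, mem_image, not_or, not_exists, not_and]
      exact ⟨fun h => hE _ h (by simp), fun u hu h => hv (Sym2.congr_right.1 h ▸ hu)⟩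

theorem F_out {α : Type} [DecidableEq α] {S : Finset α} (w : Sym2 α → ℝ) {g : α → ℤ} {z : α}
    (hz : z ∉ S) (h : g z ≠ 0) : F S w g = 0 := by
  classical
  rw [F, FE_def]
  refine sum_eq_zero fun M hM => if_neg fun h1 => h ?_
  rw [← h1, dg_eq_card, Nat.cast_eq_zero, card_eq_zero, filter_eq_empty_iff]
  exact fun e he h2 => hz (mem_sym2_iff.1 (mem_powerset.1 hM he) z h2)

theorem sum_factor (A : Matrix (Fin n) (Fin n) ℚ≥0) {k r : ℕ}
    (h : ∀ m j, 2 * j + m = n → (m = r ↔ j = k)) :
    (∑ U : Finset (Fin n), if #U = r then factorSum A fun v => if v ∈ U then 0 else 1 else 0) =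
      matchSum A k := by
  classical
  have h1 : matchSum A k = ∑ H : SimpleGraph (Fin n) with
      (∀ v, (H.neighborSet v).ncard ≤ 1) ∧ H.edgeSet.ncard = k, weight A H.Adj :=
    sum_matching (fun H => H.edgeSet.ncard = k) (fun H => weight A H.Adj)
      (fun M => by simp only [mem_filter, mem_univ, true_and, Subgraph.edgeSet_spanningCoe])
      fun H => by simp only [mem_filter, mem_univ, le_top, true_and]
  have h2 : ∀ U : Finset (Fin n),
      (if #U = r then factorSum A fun v => if v ∈ U then 0 else 1 else 0) =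
      ∑ H : SimpleGraph (Fin n), if #U = r ∧
        ∀ v, (H.neighborSet v).ncard = if v ∈ U then 0 else 1 then weight A H.Adj else 0 := by
    intro U
    by_cases h3 : #U = r
    · simp only [h3, if_true, true_and, factorSum, sum_filter]
    · simp only [h3, if_false, false_and, sum_const_zero]
  rw [h1, sum_filter, sum_congr rfl fun U _ => h2 U, sum_comm]
  refine sum_congr rfl fun H _ => ?_
  rw [sum_eq_single (univ.filter fun v => (H.neighborSet v).ncard = 0) (fun U _ hU => if_neg ?_)
    fun h => (h (mem_univ _)).elim]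
  · have h3 : (∀ v, (H.neighborSet v).ncard =
        if v ∈ univ.filter fun v => (H.neighborSet v).ncard = 0 then 0 else 1) ↔
        ∀ v, (H.neighborSet v).ncard ≤ 1 := forall_congr' fun v => by
      simp only [mem_filter, mem_univ, true_and]
      split_ifs <;> omega
    refine if_congr (and_comm.trans (h3.and Iff.rfl |>.trans (and_congr_right fun h4 => h _ _ ?_)))
      rfl rfl
    have h5 := H.sum_degrees_eq_twice_card_edges
    rw [← Set.ncard_coe_finset, coe_edgeFinset] at h5
    rw [← h5, card_filter, ← sum_add_distrib, sum_congr rfl (g := fun _ => 1) fun v _ => ?_]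
    · simp
    · have := h4 v
      rw [← nc_eq]
      split_ifs <;> omega
  · rintro ⟨-, h3⟩
    refine hU (Finset.ext fun v => ?_)
    have := h3 v
    simp only [mem_filter, mem_univ, true_and]
    split_ifs at this with h4
    · simp [h4, this]
    · simp [h4, this]

theorem FS_match {A : Matrix (Fin n) (Fin n) ℚ≥0} {num den : ℕ → ℕ → ℕ}
    (h : ∀ i j : Fin n, (num i j : ℝ) / den i j = A i j)
    (h' : ∀ i, num i n = 1 ∧ den i n = 1) (k : ℕ) :
    FS (n + 1) num den (fun v => if v < n then 1 else if 2 * k ≤ n then n - 2 * k else n + 1) =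
      matchSum A k := by
  rw [← sum_factor A (r := if 2 * k ≤ n then n - 2 * k else n + 1) fun m j _ => by
    split_ifs <;> omega]
  generalize (if 2 * k ≤ n then n - 2 * k else n + 1) = r
  rw [FS, F, FE_subset (E' := (range n).sym2 ∪ (range n).image fun v => s(n, v)), FE_star]
  · rw [show (range n).powerset = univ.powerset.image (image (Fin.val : Fin n → ℕ)) by
      rw [← powerset_image, ← range_eq], sum_image fun U _ U' _ h =>
        image_injective Fin.val_injective h, powerset_univ]
    refine sum_congr rfl fun U _ => ?_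
    have h1 : ∀ v, n ≤ v → v ∉ U.image Fin.val := fun v hv h1 => by
      obtain ⟨a, -, rfl⟩ := mem_image.1 h1
      omega
    rw [card_image_of_injective _ Fin.val_injective]
    split_ifs with h2
    · refine F_range h (fun v => ?_) fun v hv => ?_
      · have := v.2
        rw [if_pos (by omega), if_pos v.2, if_neg (by omega), ind]
        simp only [Fin.val_injective.mem_finset_image]
        split_ifs <;> simp
      · rw [ind, if_neg (h1 v hv)]
        split_ifs <;> omega
    · refine F_out (S := range n) (z := n) _ (by simp) ?_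
      simp only [ind, if_neg (h1 n le_rfl), lt_irrefl, if_false, if_true, Nat.lt_succ_self]
      omega
  · exact fun e he h1 => by simpa using mem_sym2_iff.1 he n h1
  · simp
  · intro v hv
    have := mem_range.1 hv
    simp [this, this.le, h' v]
  · intro e he
    rcases mem_union.1 he with h1 | h1
    · exact sym2_mono (by simp) h1
    · obtain ⟨v, hv, rfl⟩ := mem_image.1 h1
      have := mem_range.1 hv
      simp
      omega
  · intro e
    induction e using Sym2.ind with
    | _ a b =>
      intro h1 h2 _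
      simp only [mk_mem_sym2_iff, mem_range, mem_union, mem_image, Sym2.eq_iff, not_or, not_exists,
        not_and] at h1 h2
      have h3 := h2.2 a
      have h4 := h2.2 b
      obtain rfl : a = b := by omega
      simp

/-! ### reading the input -/

theorem length_table (t : Fin n → Fin n → ℕ) : (table t).length = n * n := by
  simp [table, List.length_flatMap]

theorem getD_table (t : Fin n → Fin n → ℕ) (i j : Fin n) (l : List ℕ) :
    (table t ++ l).getD (i * n + j) 0 = t i j := by
  have h : i * n + j < n * n := by nlinarith [i.2, j.2]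
  rw [List.getD_append _ _ _ _ (by rwa [length_table]), table, List.getD_eq_getElem?_getD,
    getElem?_flatMap_const (n := n) (by simp) _ _ j.2]
  simp

/-- the size -/
def nC (c : List ℕ) : ℕ := min (c.getD 0 0) c.length

/-- an entry of the table number `b` -/
def tC (b : ℕ) (c : List ℕ) (i j : ℕ) : ℕ := c.getD (b * (nC c * nC c) + (i * nC c + j) + 1) 0

theorem pt_nC : PT ∅ nC := PT.min (PT.getD PT.id (PT.const 0) (PT.const 0)) (PT.length PT.id)

theorem pbd_nC : PBd nC := (PBd.length (A := ∅) PT.id).mono fun _ => min_le_right _ _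

theorem pt_tC (b : ℕ) : PT ∅ fun p : List ℕ × ℕ × ℕ => tC b p.1 p.2.1 p.2.2 :=
  have h := pt_nC.comp (PT.fst' : PT ∅ fun p : List ℕ × ℕ × ℕ => p.1)
  PT.getD PT.fst' (PT.add (PT.add (PT.mul (PT.const b) (PT.mul h h))
    (PT.add (PT.mul PT.snd'.fst h) PT.snd'.snd)) (PT.const 1)) (PT.const 0)

theorem nC_eq (t : Fin n → Fin n → ℕ) (l : List ℕ) : nC (n :: (table t ++ l)) = n := by
  refine min_eq_left ?_
  simp only [List.length_cons, List.length_append, length_table, List.getD_cons_zero]
  nlinarith [Nat.zero_le l.length]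

theorem tC_zero (t : Fin n → Fin n → ℕ) (l : List ℕ) (i j : Fin n) :
    tC 0 (n :: (table t ++ l)) i j = t i j := by
  rw [tC, nC_eq, zero_mul, zero_add, List.getD_cons_succ, getD_table]

theorem tC_succ (b : ℕ) (t t' : Fin n → Fin n → ℕ) (l : List ℕ) (i j : ℕ) :
    tC (b + 1) (n :: (table t ++ (table t' ++ l))) i j = tC b (n :: (table t' ++ l)) i j := by
  rw [tC, tC, nC_eq, nC_eq, List.getD_cons_succ, List.getD_cons_succ,
    List.getD_append_right _ _ _ _ (by rw [length_table, add_mul]; omega), length_table]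
  congr 1
  rw [add_mul]
  omega

theorem matrix_app (A : Matrix (Fin n) (Fin n) ℚ≥0) (l : List ℕ) : matrixCode A ++ l =
    n :: (table (fun i j => (A i j).num) ++ (table (fun i j => (A i j).den) ++ l)) := by
  simp [matrixCode]

theorem nC_matrix (A : Matrix (Fin n) (Fin n) ℚ≥0) (l : List ℕ) : nC (matrixCode A ++ l) = n := by
  rw [matrix_app, nC_eq]

theorem den_matrix (A : Matrix (Fin n) (Fin n) ℚ≥0) (l : List ℕ) (i j : Fin n) :
    tC 1 (matrixCode A ++ l) i j = (A i j).den := by
  rw [matrix_app, tC_succ, tC_zero]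

theorem quot_matrix (A : Matrix (Fin n) (Fin n) ℚ≥0) (l : List ℕ) (i j : Fin n) :
    (tC 0 (matrixCode A ++ l) i j : ℝ) / tC 1 (matrixCode A ++ l) i j = A i j := by
  rw [den_matrix, matrix_app, tC_zero, NNRat.cast_def]

theorem rest_matrix (A : Matrix (Fin n) (Fin n) ℚ≥0) (l : List ℕ) (j : ℕ) :
    tC 2 (matrixCode A ++ l) 0 j = l.getD j 0 := by
  rw [matrix_app, tC_succ, tC, nC_eq, List.getD_cons_succ,
    List.getD_append_right _ _ _ _ (by rw [length_table]; omega), length_table]
  congr 1
  omega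

theorem den_ne (A : Matrix (Fin n) (Fin n) ℚ≥0) (l : List ℕ) {u v : ℕ} (hu : u < n) (hv : v < n) :
    tC 1 (matrixCode A ++ l) u v ≠ 0 := by
  rw [den_matrix A l ⟨u, hu⟩ ⟨v, hv⟩]
  exact (A _ _).den_ne_zero

theorem fpras_graph : FPRAS (fun G : Σ n, SimpleGraph (Fin n) => graphCode G.2)
    fun G => Nat.card {M : G.2.Subgraph // M.IsPerfectMatching} := by
  refine master (num := tC 0) (den := fun _ _ _ => 1) (f := fun _ _ => 1) pt_nC pbd_nC (pt_tC 0)
    (PT.const 1) (PT.const 1) (fun _ _ _ => by omega) (fun _ _ _ _ _ => one_ne_zero) fun G => ?_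
  rw [card_pm, graphCode, ← List.append_nil (table _), nC_eq]
  refine (FS_eq (f := fun _ => 1) (fun i j => ?_) fun _ => rfl).symm
  rw [tC_zero]
  split_ifs <;> simp

theorem fpras_haf : FPRAS (fun A : Σ n, Matrix (Fin n) (Fin n) ℚ≥0 => matrixCode A.2)
    fun A => haf A.2 := by
  refine master (num := tC 0) (den := tC 1) (f := fun _ _ => 1) pt_nC pbd_nC (pt_tC 0)
    (pt_tC 1) (PT.const 1) (fun _ _ _ => by omega) (fun A u hu v hv => ?_) fun A => ?_
  · rw [← List.append_nil (matrixCode _)] at hu hv ⊢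
    rw [nC_matrix] at hu hv
    exact den_ne _ _ hu hv
  · rw [haf_eq, ← List.append_nil (matrixCode _), nC_matrix]
    exact (FS_eq (f := fun _ => 1) (quot_matrix _ _) fun _ => rfl).symm

theorem fpras_factor : FPRAS (fun x : Σ n, Matrix (Fin n) (Fin n) ℚ≥0 × (Fin n → ℕ) =>
    matrixCode x.2.1 ++ List.ofFn x.2.2) fun x => factorSum x.2.1 x.2.2 := by
  refine master (num := tC 0) (den := tC 1) (f := fun c v => min (tC 2 c 0 v) (nC c)) pt_nC pbd_nC
    (pt_tC 0) (pt_tC 1) (PT.min ((pt_tC 2).comp (PT.fst'.pair ((PT.const 0).pair PT.snd')))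
      (pt_nC.comp PT.fst')) (fun _ _ _ => min_le_right _ _) (fun x u hu v hv => ?_) fun x => ?_
  · rw [nC_matrix] at hu hv
    exact den_ne _ _ hu hv
  · rw [nC_matrix, ← factorSum_min]
    refine (FS_eq (quot_matrix _ _) fun v => ?_).symm
    rw [rest_matrix]
    simp

theorem fpras_match : FPRAS (fun x : Σ n, Matrix (Fin n) (Fin n) ℚ≥0 × ℕ =>
    matrixCode x.2.1 ++ [x.2.2]) fun x => matchSum x.2.1 x.2.2 := by
  have h1 := pt_nC.comp (PT.fst' : PT ∅ fun p : List ℕ × ℕ × ℕ => p.1)
  have h2 := pt_nC.comp (PT.fst' : PT ∅ fun p : List ℕ × ℕ => p.1)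
  have h3 : PT ∅ fun p : List ℕ × ℕ => 2 * tC 2 p.1 0 0 :=
    PT.double ((pt_tC 2).comp (PT.fst'.pair (PT.const (0, 0))))
  refine master (n := fun c => nC c + 1) (num := fun c i j => if j = nC c then 1 else tC 0 c i j)
    (den := fun c i j => if j = nC c ∨ i = nC c then 1 else tC 1 c i j)
    (f := fun c v => if v < nC c then 1 else
      if 2 * tC 2 c 0 0 ≤ nC c then nC c - 2 * tC 2 c 0 0 else nC c + 1)
    (PT.add pt_nC (PT.const 1)) (pbd_nC.add (PBd.const 1))
    (PT.ite (PT.eqNat PT.snd'.snd h1) (PT.const 1) (pt_tC 0))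
    (PT.ite (PT.decide_or (PT.eqNat PT.snd'.snd h1) (PT.eqNat PT.snd'.fst h1)) (PT.const 1)
      (pt_tC 1))
    (PT.ite (PT.lt PT.snd' h2) (PT.const 1) (PT.ite (PT.le h3 h2) (PT.sub h2 h3)
      (PT.add h2 (PT.const 1)))) (fun c v _ => ?_) (fun x u hu v hv => ?_) fun x => ?_
  · split_ifs <;> omega
  · rw [nC_matrix] at hu hv ⊢
    split_ifs with h
    · exact one_ne_zero
    · exact den_ne _ _ (by omega) (by omega)
  · simp only [nC_matrix, rest_matrix, List.getD_cons_zero]
    refine (FS_match (fun i j => ?_) (fun i => by simp) _).symm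
    rw [if_neg j.2.ne, if_neg (not_or.2 ⟨j.2.ne, i.2.ne⟩), quot_matrix]

end Vale.Agent.N308
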